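import Vale.Agent.P095.Work

/-! Part CP of P095: commuting copies in the fixed point algebra. -/

namespace Vale.Agent.P095

open Filter Topology Finset Vale.Agent.P101 TopologicalSpace

variable {A B E F T Z : Type} [CStarAlgebra A] [CStarAlgebra B] [CStarAlgebra E] [CStarAlgebra F]
  [CStarAlgebra T] [CStarAlgebra Z] {K : Type} {ω : Ultrafilter ℕ}

open U2 in
theorem cp_fix (hω : (ω : Filter ℕ) ≤ cofinite) [Nontrivial A] [SeparableSpace A]
    {q : Linf A →⋆ₐ[ℂ] E} (hq : IsUlt ω q) [Countable K] {s : K → A →⋆ₐ[ℂ] A}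
    {σ : K → E →⋆ₐ[ℂ] E} (hσ : Ind q s σ) : Cp (Fix q (id : A → A) σ) := by
  intro T hT
  choose lift hlift using hq.surj
  set G : StarSubalgebra ℂ (Linf A) := StarAlgebra.adjoin ℂ ((fun t => lift t.1) '' T) with hG
  have hGs : IsSeparable (G : Set (Linf A)) := sep_adjoin (hT.image _)
  have hc : ∀ x ∈ G, q x ∈ Fix q (id : A → A) σ := by
    have : G ≤ (Fix q (id : A → A) σ).comap q := StarAlgebra.adjoin_le (by
      rintro _ ⟨t, -, rfl⟩
      change q (lift t.1) ∈ Fix q (id : A → A) σ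
      rw [hlift]
      exact t.2)
    exact fun x hx => this hx
  let π0 : G →⋆ₐ[ℂ] Fix q (id : A → A) σ :=
    (q.comp G.subtype).codRestrict _ fun x => hc x.1 x.2
  let D : StarSubalgebra ℂ (Fix q (id : A → A) σ) := π0.range.topologicalClosure
  have hD : IsClosed (D : Set (Fix q (id : A → A) σ)) :=
    StarSubalgebra.isClosed_topologicalClosure _
  let π : G →⋆ₐ[ℂ] D := π0.codRestrict _ fun x =>
    StarSubalgebra.le_topologicalClosure _ ⟨x, rfl⟩
  have hπ : DenseRange π := by
    rw [DenseRange, Subtype.dense_iff]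
    intro z hz
    refine closure_mono ?_ hz
    rintro _ ⟨x, rfl⟩
    exact ⟨π x, ⟨x, rfl⟩, rfl⟩
  have := hGs.separableSpace
  have hπc : Continuous π :=
    (((hom_cont q).comp continuous_subtype_val).subtype_mk _).subtype_mk _
  have : SeparableSpace D := hπ.separableSpace hπc
  refine ⟨D, inferInstance, D.subtype, Subtype.val_injective, fun t ht => ?_,
    U2.copies fun S hS => ?_⟩
  · exact ⟨π ⟨lift t.1, StarAlgebra.subset_adjoin _ _ ⟨t, ht, rfl⟩⟩, Subtype.ext (hlift _)⟩
  obtain ⟨S0, hS0S, hS0, hSS0⟩ := hS.exists_countable_dense_subset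
  obtain ⟨a, ha, ha'⟩ := exists_countable_dense A
  have z0 : ∀ k, ∀ x ∈ G, q (Z2.mapL (s k) x - x) = 0 := fun k x hx => by
    rw [map_sub, ← hσ, (mem_fix.1 (hc x hx)).2, sub_self]
  obtain ⟨m, hm⟩ := reindex hω hq
    (G := (G : Set (Linf A)) ∪ ⋃ k, (fun x => Z2.mapL (s k) x - x) '' (G : Set (Linf A)))
    (hGs.union (IsSeparable.iUnion fun k =>
      hGs.image ((hom_cont (Z2.mapL (s k))).sub continuous_id)))
    (by
      rintro x (hx | hx)
      · exact (mem_fix.1 (hc x hx)).1
      · obtain ⟨k, y, hy, rfl⟩ := Set.mem_iUnion.1 hx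
        rw [z0 k y hy]
        exact zero_mem _)
    ((hS0.image fun s => lift s.1).union (ha.image (cst A)))
  have hR : ∀ x : G, q (rx m x.1) ∈ Fix q (id : A → A) σ := fun x => mem_fix.2
    ⟨mem_cen.2 fun b => ha'.induction (P := fun b => Commute (q (rx m x.1)) (q (cst A b)))
      (fun b hb => (hm x.1 (Or.inl x.2)).2 _ (Or.inr ⟨b, hb, rfl⟩))
      (isClosed_commute continuous_const ((hom_cont q).comp continuous_cst)) b, fun k => by
      have h := (hm _ (Or.inr (Set.mem_iUnion.2 ⟨k, x.1, x.2, rfl⟩))).1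
      rw [z0 k x.1 x.2, norm_zero, norm_le_zero_iff, map_sub, map_sub, sub_eq_zero] at h
      rw [hσ]
      exact h⟩
  obtain ⟨ρ, hρ⟩ := extend_hom π hπ
    ((q.comp ((rx m).comp G.subtype)).codRestrict (Fix q (id : A → A) σ) hR)
    fun x => (hm x.1 (Or.inl x.2)).1
  refine ⟨ρ, fun d s hs => ?_⟩
  refine hπ.induction_on (p := fun d => Commute (ρ d) s) d
    (isClosed_commute (hom_cont ρ) continuous_const) fun x => ?_
  refine (isClosed_commute (f := fun _ => ρ (π x)) (g := id) continuous_const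
    continuous_id).closure_subset_iff.2 (fun s hs => ?_) (hSS0 hs)
  have := (hm x.1 (Or.inl x.2)).2 _ (Or.inl ⟨s, hs, rfl⟩)
  rw [hlift] at this
  change Commute (ρ (π x)) s
  rw [hρ]
  exact Subtype.ext this.eq

end Vale.Agent.P095
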