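import Vale.Agent.P095.Work
import Vale.Agent.P101.PartZ4
import Vale.Agent.P101.PartZ3

/-! Part IG: equivariant one-sided intertwining. -/

namespace Vale.Agent.P095

open Filter Topology Finset Vale.Agent.P101 TopologicalSpace

variable {A B E F T Z : Type} [CStarAlgebra A] [CStarAlgebra B] [CStarAlgebra E] [CStarAlgebra F]
  [CStarAlgebra T] [CStarAlgebra Z] {K : Type} {ω : Ultrafilter ℕ}

namespace IG

open Z3

variable {G : Type} [Group G]

lemma step (ι : A →⋆ₐ[ℂ] T) (β : G →* (T ≃⋆ₐ[ℂ] T))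
    (h : ∀ (W : Finset G) (X : Finset A) (Y : Finset T) (ε : ℝ), 0 < ε → ∃ z ∈ unitary T,
      (∀ g ∈ W, ‖β g z - z‖ < ε) ∧
      (∀ a ∈ X, ‖z * ι a - ι a * z‖ < ε) ∧ ∀ t ∈ Y, ∃ a, ‖z * t * star z - ι a‖ < ε)
    (W : ℕ → Finset G) (a : ℕ → A) (t : ℕ → T) (n : ℕ) (s : unitary T × Finset A) :
    ∃ s' : unitary T × Finset A, s.2 ⊆ s'.2 ∧ a n ∈ s'.2 ∧
      (∀ x ∈ s.2, dist (cj s.1 (ι x)) (cj s'.1 (ι x)) ≤ (1 / 2) ^ n) ∧
      (∀ j ≤ n, ∃ x ∈ s'.2, dist (cj s'.1 (ι x)) (t j) ≤ (1 / 2) ^ n) ∧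
      ∀ g ∈ W n, dist ((s.1 : T) * β g (star s.1)) ((s'.1 : T) * β g (star s'.1)) ≤ (1 / 2) ^ n := by
  classical
  obtain ⟨z, hz, h0, h1, h2⟩ := h (W n) s.2 ((range (n + 1)).image fun j => cj (star s.1) (t j))
    ((1 / 2) ^ n) (by positivity)
  have h3 : ∀ j, ∃ x, j ≤ n → ‖z * cj (star s.1) (t j) * star z - ι x‖ < (1 / 2) ^ n := fun j => by
    by_cases hj : j ≤ n
    · obtain ⟨x, hx⟩ := h2 _ (mem_image_of_mem _ (mem_range.2 (Nat.lt_succ_of_le hj)))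
      exact ⟨x, fun _ => hx⟩
    · exact ⟨0, fun h => absurd h hj⟩
  choose x hx using h3
  have hm : ∀ u v : unitary T, ∀ y, cj (u * v) y = cj u (cj v y) := fun u v y => by
    simp [mul_assoc]
  refine ⟨(s.1 * star ⟨z, hz⟩, insert (a n) (s.2 ∪ (range (n + 1)).image x)),
    fun y hy => by simp [hy], by simp, fun y hy => ?_, fun j hj =>
      ⟨x j, mem_insert_of_mem (mem_union_right _
        (mem_image_of_mem _ (mem_range.2 (Nat.lt_succ_of_le hj)))), ?_⟩, fun g hg => ?_⟩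
  · rw [dist_eq_norm, hm, ← map_sub, norm_cj, ← CStarRing.norm_mem_unitary_mul _ hz]
    refine le_of_eq_of_le (congrArg _ ?_) (h1 y hy).le
    simp [mul_sub, ← mul_assoc, Unitary.mul_star_self_of_mem hz]
  · rw [dist_comm, dist_eq_norm, ← norm_cj (star (s.1 * star ⟨z, hz⟩)), map_sub, ← hm,
      Unitary.star_mul_self, star_mul, star_star, hm]
    refine le_of_eq_of_le (congrArg _ ?_) (hx j hj).le
    simp
  · have e : ((s.1 * star ⟨z, hz⟩ : unitary T) : T) * β g (star (s.1 * star ⟨z, hz⟩ : unitary T)) -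
        (s.1 : T) * β g (star s.1) = s.1 * (star z * ((β g z - z) * β g (star s.1))) := by
      change (s.1 : T) * star z * β g (star ((s.1 : T) * star z)) - _ = _
      rw [star_mul, star_star, map_mul, sub_mul, mul_sub, mul_sub, ← mul_assoc (star z) z,
        Unitary.star_mul_self_of_mem hz, one_mul, mul_assoc]
    rw [dist_comm, dist_eq_norm, e, CStarRing.norm_coe_unitary_mul,
      CStarRing.norm_mem_unitary_mul _ (Unitary.star_mem hz),
      CStarRing.norm_mul_mem_unitary _ (Unitary.map_mem (β g) (Unitary.star_mem s.1.2))]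
    exact (h0 g hg).le

lemma seq (ι : A →⋆ₐ[ℂ] T) (β : G →* (T ≃⋆ₐ[ℂ] T))
    (h : ∀ (W : Finset G) (X : Finset A) (Y : Finset T) (ε : ℝ), 0 < ε → ∃ z ∈ unitary T,
      (∀ g ∈ W, ‖β g z - z‖ < ε) ∧
      (∀ a ∈ X, ‖z * ι a - ι a * z‖ < ε) ∧ ∀ t ∈ Y, ∃ a, ‖z * t * star z - ι a‖ < ε)
    (W : ℕ → Finset G) (a : ℕ → A) (t : ℕ → T) : ∃ (w : ℕ → unitary T) (X : ℕ → Finset A),
      (∀ n, a n ∈ X (n + 1)) ∧
      (∀ m, ∀ x ∈ X m, ∀ k, dist (cj (w (k + m)) (ι x)) (cj (w (k + 1 + m)) (ι x)) ≤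
        (1 / 2) ^ m * (1 / 2) ^ k) ∧
      (∀ n, ∀ j ≤ n, ∃ x ∈ X (n + 1), dist (cj (w (n + 1)) (ι x)) (t j) ≤ (1 / 2) ^ n) ∧
      ∀ n, ∀ g ∈ W n, dist ((w n : T) * β g (star (w n))) ((w (n + 1) : T) * β g (star (w (n + 1))))
        ≤ (1 / 2) ^ n := by
  choose f hf using step ι β h W a t
  obtain ⟨s, hs⟩ : ∃ s : ℕ → unitary T × Finset A, ∀ n, s (n + 1) = f n (s n) :=
    ⟨fun n => Nat.rec (1, ∅) f n, fun _ => rfl⟩
  have mono : Monotone fun n => (s n).2 :=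
    monotone_nat_of_le_succ fun n => by rw [hs]; exact (hf n (s n)).1
  refine ⟨fun n => (s n).1, fun n => (s n).2, fun n => ?_, fun m x hx k => ?_, fun n j hj => ?_,
    fun n g hg => ?_⟩
  · simp only [hs]
    exact (hf n (s n)).2.1
  · rw [← pow_add, add_comm m, add_right_comm]
    simp only [hs]
    exact (hf (k + m) (s (k + m))).2.2.1 x (mono (Nat.le_add_left m k) hx)
  · simp only [hs]
    exact (hf n (s n)).2.2.2.1 j hj
  · simp only [hs]
    exact (hf n (s n)).2.2.2.2 g hg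

lemma iso (ψ : ℕ → A →⋆ₐ[ℂ] T) {a : ℕ → A} {t : ℕ → T} (ha : DenseRange a) (ht : DenseRange t)
    (X : ℕ → Finset A) (hd : ∀ n x y, dist (ψ n x) (ψ n y) = dist x y) (hX : ∀ n, a n ∈ X (n + 1))
    (geo : ∀ m, ∀ x ∈ X m, ∀ k, dist (ψ (k + m) x) (ψ (k + 1 + m) x) ≤ (1 / 2) ^ m * (1 / 2) ^ k)
    (ap : ∀ n, ∀ j ≤ n, ∃ x ∈ X (n + 1), dist (ψ (n + 1) x) (t j) ≤ (1 / 2) ^ n) :
    ∃ Φ : A ≃⋆ₐ[ℂ] T, ∀ x, Tendsto (fun n => ψ n x) atTop (𝓝 (Φ x)) := by
  have cau : ∀ x, CauchySeq fun n => ψ n x := fun x => by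
    refine Metric.cauchySeq_iff.2 fun ε hε => ?_
    obtain ⟨k, hk⟩ := ha.exists_dist_lt x (show 0 < ε / 3 by positivity)
    have c1 : CauchySeq fun n => ψ n (a k) :=
      (cauchySeq_shift (u := fun n => ψ n (a k)) (k + 1)).1
        (cauchySeq_of_le_geometric (1 / 2) _ (by norm_num) (geo (k + 1) _ (hX k)))
    obtain ⟨N, hN⟩ := Metric.cauchySeq_iff.1 c1 (ε / 3) (by positivity)
    refine ⟨N, fun m hm n hn' => ?_⟩
    have e1 := dist_triangle4 (ψ m x) (ψ m (a k)) (ψ n (a k)) (ψ n x)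
    rw [hd, hd, dist_comm (a k)] at e1
    linarith [hN m hm n hn']
  obtain ⟨Φ, hφ⟩ := lim ψ cau
  have iso : Isometry Φ := Isometry.of_dist_eq fun x y =>
    tendsto_nhds_unique ((hφ x).dist (hφ y)) (by simp [hd])
  refine ⟨StarAlgEquiv.ofBijective Φ ⟨iso.injective, Set.range_eq_univ.1 ?_⟩, hφ⟩
  refine Set.eq_univ_of_univ_subset ?_
  rw [← ht.closure_range]
  refine closure_minimal ?_ iso.isClosedEmbedding.isClosed_range
  rintro _ ⟨j, rfl⟩
  rw [← iso.isClosedEmbedding.isClosed_range.closure_eq, Metric.mem_closure_range_iff]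
  intro ε hε
  obtain ⟨n, hn1, hn2⟩ := (((tendsto_pow_atTop_nhds_zero_of_lt_one (r := (1 / 2 : ℝ)) (by norm_num)
    (by norm_num)).eventually (gt_mem_nhds (show 0 < ε / 2 by positivity))).and
      (eventually_ge_atTop j)).exists
  obtain ⟨x, hx, e3⟩ := ap n j hn2
  have e1 : dist (ψ (0 + (n + 1)) x) (Φ x) ≤ _ :=
    dist_le_of_le_geometric_of_tendsto₀ (f := fun k => ψ (k + (n + 1)) x) (1 / 2) _ (by norm_num)
      (geo (n + 1) x hx) ((hφ x).comp (tendsto_add_atTop_nat (n + 1)))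
  refine ⟨x, ?_⟩
  have e2 := dist_triangle_left (t j) (Φ x) (ψ (n + 1) x)
  rw [zero_add, pow_succ, mul_div_assoc] at e1
  norm_num at e1 e3 hn1 ⊢
  linarith

end IG

open IG Z3 in
theorem intertwineG [SeparableSpace A] [SeparableSpace Z] {G : Type} [Group G] [Countable G]
    (ι : A →⋆ₐ[ℂ] T) (j : Z →⋆ₐ[ℂ] T) (hι : Function.Injective ι)
    (hd : Dense (StarAlgebra.adjoin ℂ (Set.range ι ∪ Set.range j) : Set T))
    (α : G →* (A ≃⋆ₐ[ℂ] A)) (β : G →* (T ≃⋆ₐ[ℂ] T)) (h1 : ∀ g a, β g (ι a) = ι (α g a))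
    (h : ∀ (W : Finset G) (X : Finset A) (Y : Finset Z) (ε : ℝ), 0 < ε → ∃ z ∈ unitary T,
      (∀ g ∈ W, ‖β g z - z‖ < ε) ∧
      (∀ a ∈ X, ‖z * ι a - ι a * z‖ < ε) ∧ ∀ d ∈ Y, ∃ a, ‖z * j d * star z - ι a‖ < ε) :
    ∃ (Φ : A ≃⋆ₐ[ℂ] T) (u : G → T), (∀ g, u g ∈ unitary T) ∧ (∀ g h, u (g * h) = u g * β g (u h)) ∧
      ∀ g a, Φ (α g a) = u g * β g (Φ a) * star (u g) := by
  classical
  have := sep ι j hd
  have h' : ∀ (W : Finset G) (X : Finset A) (Y : Finset T) (ε : ℝ), 0 < ε → ∃ z ∈ unitary T,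
      (∀ g ∈ W, ‖β g z - z‖ < ε) ∧
      (∀ a ∈ X, ‖z * ι a - ι a * z‖ < ε) ∧ ∀ t ∈ Y, ∃ a, ‖z * t * star z - ι a‖ < ε := by
    intro W X Y ε hε
    have e1 : ∀ᶠ z in Z4.fil ι j, ∀ a ∈ X, ‖z * ι a - ι a * z‖ < ε :=
      ⟨X, ∅, ε, hε, fun _ _ h1 _ => h1⟩
    have e2 := (Y.eventually_all).2 fun t _ => Z4.all ι j hd t ε hε
    obtain ⟨X', Y', δ, h0, h3⟩ := e1.and e2
    obtain ⟨z, hz, a0, a1, a2⟩ := h W X' Y' (min δ ε) (lt_min h0 hε)
    exact ⟨z, hz, fun g hg => (a0 g hg).trans_le (min_le_right _ _),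
      h3 z hz (fun a ha => (a1 a ha).trans_le (min_le_left _ _))
        fun d hd => (a2 d hd).imp fun a ha => ha.trans_le (min_le_left _ _)⟩
  obtain ⟨a, ha⟩ := exists_dense_seq A
  obtain ⟨t, ht⟩ := exists_dense_seq T
  obtain ⟨e, he⟩ := exists_surjective_nat G
  obtain ⟨w, X, hX, geo, ap, co⟩ := IG.seq ι β h' (fun n => (range (n + 1)).image e) a t
  obtain ⟨Φ, hΦ⟩ := IG.iso (fun n => ((cj (w n) : T →⋆ₐ[ℂ] T)).comp ι) ha ht X (fun n x y => by
    rw [dist_eq_norm, ← map_sub, dist_eq_norm, ← NonUnitalStarAlgHom.norm_map ι hι,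
      ← norm_cj (w n) (ι _)]
    rfl) hX geo ap
  have cau : ∀ g, CauchySeq fun n => (w n : T) * β g (star (w n)) := fun g => by
    obtain ⟨m, rfl⟩ := he g
    refine (cauchySeq_shift (u := fun n => (w n : T) * β (e m) (star (w n))) m).1
      (cauchySeq_of_le_geometric (1 / 2) ((1 / 2) ^ m) (by norm_num) fun k => ?_)
    rw [← pow_add, add_comm m, add_right_comm]
    exact co (k + m) _ (mem_image_of_mem _ (mem_range.2 (by omega)))
  choose u hu using fun g => cauchySeq_tendsto_of_complete (cau g)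
  have hβ : ∀ g, Continuous (β g) := fun g => U2.hom_cont (β g : T →⋆ₐ[ℂ] T)
  refine ⟨Φ, u, fun g => ?_, fun g k => ?_, fun g x => ?_⟩
  · exact isClosed_unitary.mem_of_tendsto (hu g) (Eventually.of_forall fun n =>
      mul_mem (w n).2 (Unitary.map_mem (β g) (Unitary.star_mem (w n).2)))
  · refine tendsto_nhds_unique (hu _) (((hu g).mul (((hβ g).tendsto _).comp (hu k))).congr
      fun n => ?_)
    rw [Function.comp_apply, map_mul (β g), mul_assoc, ← mul_assoc (β g _), ← map_mul (β g),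
      Unitary.coe_star_mul_self, map_one, one_mul, map_mul β]
    rfl
  · refine tendsto_nhds_unique (hΦ _) ((((hu g).mul (((hβ g).tendsto _).comp (hΦ x))).mul
      (hu g).star).congr fun n => ?_)
    have e1 : β g (star (w n : T)) * β g (w n : T) = 1 := by
      rw [← map_mul, Unitary.coe_star_mul_self, map_one]
    change (w n : T) * β g (star (w n : T)) * β g ((w n : T) * ι x * star (w n : T)) *
      star ((w n : T) * β g (star (w n : T))) = (w n : T) * ι (α g x) * star (w n : T)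
    rw [star_mul, ← map_star, star_star, map_mul, map_mul, h1]
    calc _ = (w n : T) * (β g (star (w n : T)) * β g (w n : T)) * ι (α g x) *
          (β g (star (w n : T)) * β g (w n : T)) * star (w n : T) := by simp only [mul_assoc]
      _ = _ := by rw [e1, mul_one, mul_one]

end Vale.Agent.P095
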