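import Vale.Agent.P095.PartAP
import Vale.Agent.P095.PartCP
import Vale.Agent.P095.PartIG
import Vale.Agent.P095H.PartK
import Vale.Agent.P095H.PartY
import Vale.Agent.P101.Glue

/-! Actions with locally finite image in the outer automorphism group. -/

namespace Vale.Agent.P095

open Filter Topology Finset Vale.Agent.P101 TopologicalSpace

variable {A E T Z : Type} [CStarAlgebra A] [CStarAlgebra E] [CStarAlgebra T] [CStarAlgebra Z]
  {ω : Ultrafilter ℕ}

theorem nochar_out [Nontrivial A] {q : Linf A →⋆ₐ[ℂ] E} (hq : IsUlt ω q) {G : Type} [Group G]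
    {s : G → A →⋆ₐ[ℂ] A} (h1 : ∀ x, s 1 x = x) (hm : ∀ g h x, s (g * h) x = s g (s h x))
    {σ : G → E →⋆ₐ[ℂ] E} (hσ : Ind q s σ) [IsSimpleRing Z] (hinf : ¬ FiniteDimensional ℂ Z)
    (ho : ∀ x : Cen q (id : A → A), ∃ γ : Z →⋆ₐ[ℂ] Cen q (id : A → A), ∀ d, Commute (γ d) x)
    (W L : Finset G) (hT : ∀ g ∈ Subgroup.closure (W : Set G), ∃ t ∈ L, ∃ u ∈ unitary A,
      ∀ a, s g a = u * s t a * star u) :
    IsEmpty (Fix q (id : A → A) (fun w : W => σ w) →⋆ₐ[ℂ] ℂ) := by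
  have e1 : ∀ x, σ 1 x = x := fun x => by
    obtain ⟨x, rfl⟩ := hq.surj x
    rw [hσ]
    exact congrArg q (lp.ext (funext fun n => h1 (x n)))
  have em : ∀ g h x, σ (g * h) x = σ g (σ h x) := fun g h x => by
    obtain ⟨x, rfl⟩ := hq.surj x
    rw [hσ, hσ, hσ]
    exact congrArg q (lp.ext (funext fun n => hm g h (x n)))
  have ec : ∀ g a, σ g (q (cst A (s g⁻¹ a))) = q (cst A a) := fun g a => by
    rw [hσ]
    refine congrArg q (lp.ext (funext fun n => ?_))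
    show s g (s g⁻¹ a) = a
    rw [← hm, mul_inv_cancel, h1]
  have cen : ∀ g (x : Cen q (id : A → A)),
      ((σ g).comp (Cen q (id : A → A)).subtype) x ∈ Cen q (id : A → A) := fun g x =>
    U2.mem_cen.2 fun a => by
      have := (U2.mem_cen.1 x.2 (s g⁻¹ a)).map (σ g)
      rwa [ec] at this
  let ρ : G →* (Cen q (id : A → A) →⋆ₐ[ℂ] Cen q (id : A → A)) :=
    { toFun := fun g => ((σ g).comp (Cen q (id : A → A)).subtype).codRestrict _ (cen g)
      map_one' := StarAlgHom.ext fun x => Subtype.ext (e1 x)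
      map_mul' := fun g h => StarAlgHom.ext fun x => Subtype.ext (em g h x) }
  have inn : ∀ g t, ∀ u ∈ unitary A, (∀ a, s g a = u * s t a * star u) → ρ g = ρ t := by
    intro g t u hu h
    refine StarAlgHom.ext fun x => Subtype.ext ?_
    have hc := (U2.mem_cen.1 (cen t x) u).eq
    obtain ⟨x, hx⟩ := x
    obtain ⟨y, rfl⟩ := hq.surj x
    show σ g (q y) = σ t (q y)
    have k1 : σ g (q y) = q (cst A u) * σ t (q y) * q (cst A (star u)) := by
      rw [hσ, hσ, ← map_mul, ← map_mul]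
      exact congrArg q (lp.ext (funext fun n => h (y n)))
    have k2 : q (cst A u) * q (cst A (star u)) = 1 := by
      rw [← map_mul, ← map_one q]
      exact congrArg q (lp.ext (funext fun _ => hu.2))
    have k3 : σ t (q y) * q (cst A u) = q (cst A u) * σ t (q y) := hc
    rw [k1, ← k3, mul_assoc, k2, mul_one]
  let H := (Subgroup.closure (W : Set G)).map ρ.toHomUnits
  have hf : (H : Set (Cen q (id : A → A) →⋆ₐ[ℂ] Cen q (id : A → A))ˣ).Finite := by
    refine (L.finite_toSet.image ρ.toHomUnits).subset ?_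
    rintro _ ⟨g, hg, rfl⟩
    obtain ⟨t, ht, u, hu, h⟩ := hT g hg
    exact ⟨t, ht, Units.ext (inn g t u hu h).symm⟩
  have : Fintype H := hf.fintype
  have no := P095H.nochar_fix (R := P095H.Fix fun h : H => h.1.1) hinf
    (σ := fun h : H => h.1.1) ⟨fun _ => rfl, fun _ _ _ => rfl⟩ ho (StarSubalgebra.subtype _)
    Subtype.val_injective (fun g r => r.2 g) fun x hx => ⟨⟨x, hx⟩, rfl⟩
  refine ⟨fun χ => no.false (χ.comp (((Cen q (id : A → A)).subtype.comp
    (StarSubalgebra.subtype _)).codRestrict _ fun x => mem_fix.2 ⟨x.1.2, fun w => ?_⟩))⟩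
  exact congrArg Subtype.val (x.2 ⟨ρ.toHomUnits w, w, Subgroup.subset_closure w.2, rfl⟩)

theorem main_out [Nontrivial A] [SeparableSpace A] [SeparableSpace Z] [IsSimpleRing Z]
    (hinf : ¬ FiniteDimensional ℂ Z) (hZ : DropLimit Z) (hf : HalfFlip Z)
    (hcc : P095H.CentralCopies Z)
    (ι : A →⋆ₐ[ℂ] T) (j : Z →⋆ₐ[ℂ] T) (hι : Function.Injective ι) (hc : ∀ a d, Commute (ι a) (j d))
    (hd : Dense (StarAlgebra.adjoin ℂ (Set.range ι ∪ Set.range j) : Set T))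
    (φ : A ≃⋆ₐ[ℂ] T) {G : Type} [Group G] [Countable G]
    (α : G →* (A ≃⋆ₐ[ℂ] A)) (β : G →* (T ≃⋆ₐ[ℂ] T))
    (hG : ∀ W : Finset G, ∃ L : Finset G, ∀ g ∈ Subgroup.closure (W : Set G), ∃ t ∈ L,
      ∃ u ∈ unitary A, ∀ a, α g a = u * α t a * star u)
    (h1 : ∀ g a, β g (ι a) = ι (α g a)) (h2 : ∀ g d, β g (j d) = j d) :
    ∃ (Φ : A ≃⋆ₐ[ℂ] T) (u : G → T), (∀ g, u g ∈ unitary T) ∧ (∀ g h, u (g * h) = u g * β g (u h)) ∧
      ∀ g a, Φ (α g a) = u g * β g (Φ a) * star (u g) := by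
  have hω : ((hyperfilter ℕ : Ultrafilter ℕ) : Filter ℕ) ≤ cofinite := hyperfilter_le_cofinite
  obtain ⟨E, _, _, q, hq⟩ := exists_ult (A := A) (hyperfilter ℕ)
  obtain ⟨Δ, hΔ, -⟩ := P095H.delta hω hq hcc ι j hc hd φ
  obtain ⟨σ, hσ⟩ := exists_ind hq fun g : G => (α g : A →⋆ₐ[ℂ] A)
  refine intertwineG ι j hι hd α β h1 fun W X Y ε hε => ?_
  obtain ⟨L, hL⟩ := hG W
  have hW : Ind q (fun g : W => (α g : A →⋆ₐ[ℂ] A)) fun g => σ g := fun g x => hσ g x
  obtain ⟨z, hz, a1, a2⟩ := approxG hω hq hZ hf hW (drop (cp_fix hω hq hW)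
    (nochar_out hq (fun x => by simp) (fun g h x => by simp) hσ hinf
      (P095H.zcopy hω hq Δ hΔ) W L hL)) ι j hι hc
    (fun g : W => (β g : T →⋆ₐ[ℂ] T)) (fun g a => h1 g a) (fun g d => h2 g d) X Y ε hε
  exact ⟨z, hz, fun g hg => a1 ⟨g, hg⟩, a2⟩

end Vale.Agent.P095
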