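import Vale.Agent.P095.NU

/-! Approximately central, approximately invariant unitaries, modulo the annihilator. -/

namespace Vale.Agent.P095

open Filter Topology Finset Vale.Agent.P101 TopologicalSpace

variable {B E F Q Q0 W Z : Type} [CStarAlgebra B] [CStarAlgebra E] [CStarAlgebra F]
  [CStarAlgebra Q] [CStarAlgebra Q0] [CStarAlgebra W] [CStarAlgebra Z] {I K : Type}
  {A T : Type} [NonUnitalCStarAlgebra A] [NonUnitalCStarAlgebra T] {ω : Ultrafilter ℕ}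

open U1 Z2 in
theorem approxN (hω : (ω : Filter ℕ) ≤ cofinite) [Nontrivial B]
    {q : Linf B →⋆ₐ[ℂ] E} (hq : IsUlt ω q) (hZ : DropLimit Z) (hf : HalfFlipZero Z) [Fintype K]
    {s : K → B →⋆ₐ[ℂ] B} {σ : K → E →⋆ₐ[ℂ] E} (hσ : Ind q s σ) {c : I → B}
    {π : Fix q (id : B → B) σ →⋆ₐ[ℂ] Q} (hπ : Pres _ (fun a => q (cst B (c a))) π)
    (h : ∀ p r : ℕ, 0 < p → 0 < r → p.Coprime r → Nonempty (DimDrop p r →⋆ₐ[ℂ] Q))
    (ι : B →⋆ₐ[ℂ] W) (j : Z →⋆ₐ[ℂ] W) (hι : ∃ a, ι (c a) ≠ 0) (hc : ∀ b d, Commute (ι b) (j d))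
    (t : K → W →⋆ₐ[ℂ] W) (h1 : ∀ k b, t k (ι b) = ι (s k b)) (h2 : ∀ k d, t k (j d) = j d)
    (X : Finset I) (Y : Finset Z) (ε : ℝ) (hε : 0 < ε) : ∃ z ∈ unitary W,
      (∀ k, ‖t k z - z‖ < ε) ∧ (∀ a ∈ X, ‖z * ι (c a) - ι (c a) * z‖ < ε) ∧
      ∀ d ∈ Y, ∃ b, ∀ a ∈ X, ‖(z * j d * star z - ι b) * ι (c a)‖ < ε := by
  obtain ⟨a0, ha0⟩ := hι
  haveI : Nontrivial W := ⟨⟨_, _, ha0⟩⟩
  obtain ⟨ET, _, _, qT, hT⟩ := exists_ult (A := W) ω
  obtain ⟨τ, hτ⟩ := exists_ind hT t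
  obtain ⟨Φ, hΦ⟩ := induced hq hT ι
  have ec : ∀ a, Φ (q (cst B a)) = qT (cst W (ι a)) := fun a => hΦ _
  have m1 : ∀ g : Fix q (id : B → B) σ,
      (Φ.comp (Fix q (id : B → B) σ).subtype) g ∈ Fix qT ι τ := by
    intro g
    obtain ⟨g1, g2⟩ := mem_fix.1 g.2
    refine mem_fix.2 ⟨?_, fun k => ?_⟩
    · rw [StarSubalgebra.mem_centralizer_iff]
      rintro _ ⟨a, rfl⟩
      have := (StarSubalgebra.mem_centralizer_iff ℂ).1 g1 _ ⟨a, rfl⟩
      have e : Φ (q (cst B (id a))) = qT (cst W (ι a)) := hΦ _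
      refine ⟨?_, ?_⟩
      · have e' := congrArg Φ this.1
        rwa [map_mul, map_mul, e] at e'
      · have e' := congrArg Φ this.2
        rwa [map_mul, map_mul, map_star, e] at e'
    · obtain ⟨x, hx⟩ := hq.surj g
      show τ k (Φ g) = Φ g
      conv_rhs => rw [← g2 k]
      rw [← hx, hσ, hΦ, hΦ, hτ]
      exact congrArg qT (lp.ext (funext fun n => h1 k (x n)))
  have m2 : ∀ d : Z, (qT.comp ((cstH W).comp j)) d ∈ Fix qT ι τ := by
    intro d
    refine mem_fix.2 ⟨?_, fun k => ?_⟩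
    · rw [StarSubalgebra.mem_centralizer_iff]
      rintro _ ⟨a, rfl⟩
      refine ⟨((hc a d).map (qT.comp (cstH W))).eq, ?_⟩
      have := ((hc (star a) d).map (qT.comp (cstH W))).eq
      rwa [map_star, map_star] at this
    · exact (hτ k _).trans (congrArg qT (lp.ext (funext fun _ => h2 k d)))
  have cm : ∀ x ∈ Fix qT ι τ, ∀ a, Commute x (qT (cst W (ι a))) := fun x hx a =>
    ((StarSubalgebra.mem_centralizer_iff ℂ).1 (mem_fix.1 hx).1 _ ⟨a, rfl⟩).1.symm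
  obtain ⟨F, _, p, hp⟩ := exists_pres (Fix qT ι τ) (fun a => qT (cst W (ι (c a))))
    fun x hx a => cm x hx _
  haveI : Nontrivial F := ⟨⟨p 1, 0, fun e => by
    have e1 : qT (cst W (ι (c a0))) = 0 := (one_mul _).symm.trans ((hp.ker 1).1 e a0)
    exact ha0 (norm_eq_zero.1 (tendsto_nhds_unique tendsto_const_nhds ((zero_iff hT _).1 e1)))⟩⟩
  let Ψ := (Φ.comp (Fix q (id : B → B) σ).subtype).codRestrict _ m1
  let J := (qT.comp ((cstH W).comp j)).codRestrict _ m2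
  obtain ⟨φ, hφ⟩ := lift_surj π hπ.surj (p.comp Ψ) fun x hx => (hp.ker _).2 fun a => by
    have := congrArg Φ ((hπ.ker x).1 hx a)
    rwa [map_mul, ec, map_zero] at this
  haveI : Nontrivial Q := (φ : Q →+* F).domain_nontrivial
  set M : ℝ := ∑ a ∈ X, ‖qT (cst W (ι (c a)))‖ with hM
  have M0 : 0 ≤ M := sum_nonneg fun _ _ => norm_nonneg _
  obtain ⟨w, hw, hw'⟩ := flip_joined hω hZ hf h φ (p.comp J) (fun d g => by
      obtain ⟨g, rfl⟩ := hπ.surj g
      rw [hφ]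
      refine Commute.map (?_ : Commute (J d) (Ψ g)) p
      obtain ⟨x, hx⟩ := hq.surj g
      refine Subtype.ext ?_
      show qT (cstH W (j d)) * Φ g = Φ g * qT (cstH W (j d))
      rw [← hx, hΦ]
      refine (Commute.map (?_ : Commute (cstH W (j d)) (mapL ι x)) qT).eq
      exact lp.ext (funext fun n => (hc (x n) d).symm.eq)) Y (ε := ε / (M + 1)) (by positivity)
  obtain ⟨u, -, hu⟩ := lift_joined p hp.surj hw
  have hw1 : (u.1 : ET) ∈ unitary ET :=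
    ⟨congrArg Subtype.val u.2.1, congrArg Subtype.val u.2.2⟩
  obtain ⟨z, hz, hz'⟩ := lift_unitary hT hw1
  have a0 : ∀ᶠ n in (ω : Filter ℕ), ∀ k, ‖t k (z n) - z n‖ < ε :=
    Filter.eventually_all.2 fun k => by
      have := (mem_fix.1 u.1.2).2 k
      rw [← hz, hτ] at this
      exact ((eq_iff hT _ _).1 this).eventually (gt_mem_nhds hε)
  have a1 : ∀ᶠ n in (ω : Filter ℕ), ∀ a ∈ X, ‖z n * ι (c a) - ι (c a) * z n‖ < ε :=
    (Filter.eventually_all_finset X).2 fun a _ => by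
      have := (cm _ u.1.2 (c a)).eq
      rw [← hz, ← map_mul, ← map_mul] at this
      exact ((eq_iff hT _ _).1 this).eventually (gt_mem_nhds hε)
  have a2 : ∀ᶠ n in (ω : Filter ℕ), ∀ d ∈ Y, ∃ b, ∀ a ∈ X,
      ‖(z n * j d * star (z n) - ι b) * ι (c a)‖ < ε :=
    (Filter.eventually_all_finset Y).2 fun d hd => by
      obtain ⟨g, hg⟩ := hw' d hd
      obtain ⟨g, rfl⟩ := hπ.surj g
      obtain ⟨x, hx⟩ := hq.surj g
      refine Filter.Eventually.mono ((Filter.eventually_all_finset X).2 fun a ha => ?_)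
        fun n hn => ⟨x n, hn⟩
      have k0 : ‖p (u.1 * J d * star u.1 - Ψ g)‖ < ε / (M + 1) := by
        rw [map_sub, map_mul, map_mul, map_star, hu]
        rwa [hφ] at hg
      have k1 := hp.norm_mul (u.1 * J d * star u.1 - Ψ g) a
      have k2 : ‖qT (cst W (ι (c a)))‖ ≤ M :=
        single_le_sum (f := fun a => ‖qT (cst W (ι (c a)))‖) (fun _ _ => norm_nonneg _) ha
      have k3 : ε / (M + 1) * (M + 1) = ε := div_mul_cancel₀ _ (by positivity)
      have k4 : ‖((u.1 : ET) * qT (cstH W (j d)) * star (u.1 : ET) - Φ g) *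
          qT (cst W (ι (c a)))‖ < ε := k1.trans_lt (by
        nlinarith [norm_nonneg (p (u.1 * J d * star u.1 - Ψ g)),
          norm_nonneg (qT (cst W (ι (c a))))])
      rw [← hz, ← hx, hΦ, ← map_star, ← map_mul, ← map_mul, ← map_sub, ← map_mul] at k4
      exact (hT.norm _).eventually (gt_mem_nhds k4)
  obtain ⟨n, b0, b1, b2⟩ := (a0.and (a1.and a2)).exists
  exact ⟨z n, hz' n, b0, b1, b2⟩

end Vale.Agent.P095
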