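import Vale.Agent.P095.Work

/-! Part CN of P095: stable algebras have central sequence algebras without characters. -/

namespace Vale.Agent.P095

open Filter Topology Finset Vale.Agent.P101 TopologicalSpace

variable {A B E F T Z : Type} [CStarAlgebra A] [CStarAlgebra B] [CStarAlgebra E] [CStarAlgebra F]
  [CStarAlgebra T] [CStarAlgebra Z] {K : Type} {ω : Ultrafilter ℕ}

/-- A sequence of homomorphisms as one homomorphism. -/
noncomputable def CN.seq [Nontrivial A] (ψ : ℕ → Z →⋆ₐ[ℂ] A) : Z →⋆ₐ[ℂ] Linf A where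
  toFun d := U1.bd (fun n => ψ n d) ‖d‖ fun n => NonUnitalStarAlgHom.norm_apply_le (ψ n) d
  map_one' := lp.ext (funext fun n => map_one (ψ n))
  map_mul' x y := lp.ext (funext fun n => map_mul (ψ n) x y)
  map_zero' := lp.ext (funext fun n => map_zero (ψ n))
  map_add' x y := lp.ext (funext fun n => map_add (ψ n) x y)
  commutes' c := lp.ext (funext fun n => AlgHomClass.commutes (ψ n) c)
  map_star' x := lp.ext (funext fun n => map_star (ψ n) x)

theorem cen_nochar (hω : (ω : Filter ℕ) ≤ cofinite) [Nontrivial A] {q : Linf A →⋆ₐ[ℂ] E}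
    (hq : IsUlt ω q) [SeparableSpace Z] (hs : SelfCentral Z) (hn : IsEmpty (Z →⋆ₐ[ℂ] ℂ))
    (ι : A →⋆ₐ[ℂ] T) (j : Z →⋆ₐ[ℂ] T) (hc : ∀ a d, Commute (ι a) (j d))
    (hd : Dense (StarAlgebra.adjoin ℂ (Set.range ι ∪ Set.range j) : Set T))
    (φ : A ≃⋆ₐ[ℂ] T) : IsEmpty (Cen q (id : A → A) →⋆ₐ[ℂ] ℂ) := by
  classical
  obtain ⟨u, hu⟩ := exists_dense_seq Z
  choose θ hθ using fun n : ℕ => hs ((range n).image u) (1 / ((n : ℝ) + 1)) (by positivity)
  let φ' : T →⋆ₐ[ℂ] A := φ.symm
  let Γ : Z →⋆ₐ[ℂ] E := q.comp (CN.seq fun n => (φ'.comp j).comp (θ n))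
  let κ : T →⋆ₐ[ℂ] E := (q.comp (Z2.cstH A)).comp φ'
  have key : ∀ d t, Tendsto (fun n => ‖j (θ n d) * t - t * j (θ n d)‖) ω (𝓝 0) →
      Commute (Γ d) (κ t) := fun d t h => by
    refine (map_mul q _ _).symm.trans (((U1.eq_iff hq _ _).2 ?_).trans (map_mul q _ _))
    refine squeeze_zero (fun _ => norm_nonneg _) (fun n => ?_) h
    refine le_of_eq_of_le ?_ (NonUnitalStarAlgHom.norm_apply_le φ' _)
    rw [map_sub, map_mul, map_mul]
    rfl
  have h1 : ∀ d a, Commute (Γ d) (κ (ι a)) := fun d a => key _ _ (by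
    simp only [fun n => (hc a (θ n d)).eq, sub_self, norm_zero]
    exact tendsto_const_nhds)
  have h2 : ∀ d y, Commute (Γ d) (κ (j y)) := fun d y => by
    refine hu.induction_on₂ (p := fun d y => Commute (Γ d) (κ (j y)))
      (U2.isClosed_commute ((U2.hom_cont Γ).comp continuous_fst)
        ((U2.hom_cont (κ.comp j)).comp continuous_snd)) (fun a b => key _ _ ?_) d y
    have e : (ω : Filter ℕ) ≤ atTop := Nat.cofinite_eq_atTop ▸ hω
    refine squeeze_zero' (Eventually.of_forall fun _ => norm_nonneg _) ?_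
      (tendsto_one_div_add_atTop_nhds_zero_nat.mono_left e)
    filter_upwards [e (eventually_gt_atTop a), e (eventually_gt_atTop b)] with n ha hb
    rw [← map_mul, ← map_mul, ← map_sub]
    exact (NonUnitalStarAlgHom.norm_apply_le j _).trans
      (hθ n _ (mem_image_of_mem u (mem_range.2 ha)) _ (mem_image_of_mem u (mem_range.2 hb))).le
  have h3 : ∀ d t, Commute (Γ d) (κ t) := fun d t => by
    refine Dense.induction hd (P := fun t => Commute (Γ d) (κ t)) (fun t ht => ?_)
      (U2.isClosed_commute continuous_const (U2.hom_cont κ)) t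
    have : StarAlgebra.adjoin ℂ (Set.range ι ∪ Set.range j) ≤
        (StarSubalgebra.centralizer ℂ (Set.range Γ)).comap κ := by
      refine StarAlgebra.adjoin_le ?_
      rintro _ (⟨a, rfl⟩ | ⟨y, rfl⟩)
      all_goals
        refine (StarSubalgebra.mem_centralizer_iff ℂ).2 ?_
        rintro _ ⟨d, rfl⟩
        rw [← map_star]
      exacts [⟨h1 _ _, h1 _ _⟩, ⟨h2 _ _, h2 _ _⟩]
    exact ((StarSubalgebra.mem_centralizer_iff ℂ).1 (this ht) _ ⟨d, rfl⟩).1
  have h4 : ∀ d, Γ d ∈ Cen q (id : A → A) := fun d => by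
    refine (StarSubalgebra.mem_centralizer_iff ℂ).2 ?_
    rintro _ ⟨a, rfl⟩
    have e : q (cst A (id a)) = κ (φ a) := congrArg (fun x => q (cst A x)) (φ.symm_apply_apply a).symm
    simp only [e]
    rw [← map_star]
    exact ⟨(h3 _ _).symm, (h3 _ _).symm⟩
  exact ⟨fun χ => hn.elim (χ.comp (Γ.codRestrict _ h4))⟩

end Vale.Agent.P095
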