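import Vale.Agent.P095.NWork
import Vale.Agent.P095.PartCN

/-! Part NCN of P095: stable algebras without unit. -/

namespace Vale.Agent.P095

open Filter Topology Finset Vale.Agent.P101 TopologicalSpace

variable {B E F Q Q0 W Z : Type} [CStarAlgebra B] [CStarAlgebra E] [CStarAlgebra F]
  [CStarAlgebra Q] [CStarAlgebra Q0] [CStarAlgebra W] [CStarAlgebra Z] {I K : Type}
  {A T : Type} [NonUnitalCStarAlgebra A] [NonUnitalCStarAlgebra T] {ω : Ultrafilter ℕ}

namespace NCN

lemma closed {X : Type} [TopologicalSpace X] {l : Filter ℕ} (f : ℕ → X → W)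
    (h : ∀ x ε, 0 < ε → ∀ᶠ y in 𝓝 x, ∀ n, ‖f n x - f n y‖ ≤ ε) :
    IsClosed {x | Tendsto (fun n => f n x) l (𝓝 0)} := by
  refine isClosed_of_closure_subset fun x hx => Metric.tendsto_nhds.2 fun ε hε => ?_
  obtain ⟨y, h1, h2⟩ := mem_closure_iff_nhds.1 hx _ (h x (ε / 2) (half_pos hε))
  filter_upwards [Metric.tendsto_nhds.1 h2 (ε / 2) (half_pos hε)] with n hn
  rw [dist_zero_right] at hn ⊢
  have := norm_add_le (f n x - f n y) (f n y)
  rw [sub_add_cancel] at this
  linarith [h1 n]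

lemma lip {X : Type} [NormedAddCommGroup X] {l : Filter ℕ} (f : ℕ → X → W) (C : ℝ) (hC : 0 ≤ C)
    (h : ∀ n x y, ‖f n x - f n y‖ ≤ C * ‖x - y‖) :
    IsClosed {x | Tendsto (fun n => f n x) l (𝓝 0)} :=
  closed f fun x ε hε => by
    filter_upwards [Metric.ball_mem_nhds x (show 0 < ε / (C + 1) by positivity)] with y hy n
    rw [mem_ball_iff_norm', lt_div_iff₀ (by positivity)] at hy
    nlinarith [h n x y, norm_nonneg (x - y)]

lemma mulL {l : Filter ℕ} {f g : ℕ → W} {C : ℝ} (hf : ∀ n, ‖f n‖ ≤ C) (hg : Tendsto g l (𝓝 0)) :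
    Tendsto (fun n => f n * g n) l (𝓝 0) :=
  squeeze_zero_norm (fun n => norm_mul_le_of_le (hf n) le_rfl)
    (by simpa using (tendsto_zero_iff_norm_tendsto_zero.1 hg).const_mul C)

lemma mulR {l : Filter ℕ} {f g : ℕ → W} {C : ℝ} (hf : ∀ n, ‖f n‖ ≤ C) (hg : Tendsto g l (𝓝 0)) :
    Tendsto (fun n => g n * f n) l (𝓝 0) :=
  squeeze_zero_norm (fun n => norm_mul_le_of_le le_rfl (hf n))
    (by simpa using (tendsto_zero_iff_norm_tendsto_zero.1 hg).mul_const C)

lemma add0 {l : Filter ℕ} {f g : ℕ → W} (hf : Tendsto f l (𝓝 0)) (hg : Tendsto g l (𝓝 0)) :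
    Tendsto (fun n => f n + g n) l (𝓝 0) := by simpa using hf.add hg

lemma sub0 {l : Filter ℕ} {f g : ℕ → W} (hf : Tendsto f l (𝓝 0)) (hg : Tendsto g l (𝓝 0)) :
    Tendsto (fun n => f n - g n) l (𝓝 0) := by simpa using hf.sub hg

lemma smul0 {l : Filter ℕ} {f : ℕ → W} (hf : Tendsto f l (𝓝 0)) (c : ℂ) :
    Tendsto (fun n => c • f n) l (𝓝 0) := by simpa using hf.const_smul c

lemma unit [SeparableSpace A] : ∃ e : ℕ → A, (∀ n, star (e n) = e n ∧ ‖e n‖ ≤ 1) ∧
    ∀ a, Tendsto (fun n => e n * a) atTop (𝓝 a) := by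
  let _ := CStarAlgebra.spectralOrder A
  have _ := CStarAlgebra.spectralOrderedRing A
  have hl := CStarAlgebra.increasingApproximateUnit A
  obtain ⟨u, hu⟩ := exists_dense_seq A
  have h : ∀ n : ℕ, ∃ x : A, (star x = x ∧ ‖x‖ ≤ 1) ∧
      ∀ i ∈ range n, dist (x * u i) (u i) < 1 / ((n : ℝ) + 1) := fun n =>
    ((hl.eventually_star_eq.and hl.eventually_norm).and ((eventually_all_finset _).2 fun i _ =>
      Metric.tendsto_nhds.1 (hl.tendsto_mul_right (u i)) _ (by positivity))).exists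
  choose e h1 h2 using h
  refine ⟨e, h1, fun a => Metric.tendsto_nhds.2 fun ε hε => ?_⟩
  obtain ⟨i, hi⟩ := hu.exists_dist_lt a (show 0 < ε / 3 by positivity)
  filter_upwards [eventually_gt_atTop i, tendsto_one_div_add_atTop_nhds_zero_nat.eventually
    (gt_mem_nhds (show 0 < ε / 3 by positivity))] with n hn hn'
  have a1 := h2 n i (mem_range.2 hn)
  have a2 : dist (e n * a) (e n * u i) ≤ dist a (u i) := by
    rw [dist_eq_norm, dist_eq_norm, ← mul_sub]
    exact (norm_mul_le_of_le (h1 n).2 le_rfl).trans_eq (one_mul _)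
  have a3 := dist_triangle4 (e n * a) (e n * u i) (u i) a
  rw [dist_comm (u i) a] at a3
  linarith

lemma central (hω : (ω : Filter ℕ) ≤ cofinite) [SeparableSpace Z] (hs : SelfCen Z) :
    ∃ θ : ℕ → Z →⋆ₐ[ℂ] Z, ∀ d y, Tendsto (fun n => θ n d * y - y * θ n d) ω (𝓝 0) := by
  classical
  obtain ⟨u, hu⟩ := exists_dense_seq Z
  choose θ hθ using fun n : ℕ => hs ((range n).image u) (1 / ((n : ℝ) + 1)) (by positivity)
  have hn := fun n => NonUnitalStarAlgHom.norm_apply_le (θ n)
  have e : (ω : Filter ℕ) ≤ atTop := Nat.cofinite_eq_atTop ▸ hω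
  refine ⟨θ, fun d y => ?_⟩
  refine hu.induction_on d (lip (fun n d => θ n d * y - y * θ n d) (2 * ‖y‖) (by positivity)
    fun n a b => ?_) fun a => ?_
  · rw [show θ n a * y - y * θ n a - (θ n b * y - y * θ n b) = θ n (a - b) * y - y * θ n (a - b) by
      rw [map_sub]; noncomm_ring]
    exact ((norm_sub_le _ _).trans (add_le_add (norm_mul_le_of_le (hn n _) le_rfl)
      (norm_mul_le_of_le le_rfl (hn n _)))).trans_eq (by ring)
  refine hu.induction_on y (lip (fun n y => θ n (u a) * y - y * θ n (u a)) (2 * ‖u a‖)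
    (by positivity) fun n b c => ?_) fun b => ?_
  · rw [show θ n (u a) * b - b * θ n (u a) - (θ n (u a) * c - c * θ n (u a)) =
      θ n (u a) * (b - c) - (b - c) * θ n (u a) by noncomm_ring]
    exact ((norm_sub_le _ _).trans (add_le_add (norm_mul_le_of_le (hn n _) le_rfl)
      (norm_mul_le_of_le le_rfl (hn n _)))).trans_eq (by ring)
  refine squeeze_zero_norm' ?_ (tendsto_one_div_add_atTop_nhds_zero_nat.mono_left e)
  filter_upwards [e (eventually_gt_atTop a), e (eventually_gt_atTop b)] with n ha hb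
  exact (hθ n _ (mem_image_of_mem u (mem_range.2 ha)) _ (mem_image_of_mem u (mem_range.2 hb))).le

end NCN

theorem cen_nocharN (hω : (ω : Filter ℕ) ≤ cofinite) [SeparableSpace A]
    {q : Linf (Unitization ℂ A) →⋆ₐ[ℂ] E} (hq : IsUlt ω q) [SeparableSpace Z] (hs : SelfCen Z)
    (hn : IsEmpty (Z →⋆ₐ[ℂ] ℂ)) (ι : A →⋆ₙₐ[ℂ] W) (j : Z →⋆ₐ[ℂ] W) (κ : T →⋆ₙₐ[ℂ] W)
    (hκ : Function.Injective κ) (hc : ∀ a d, Commute (ι a) (j d))
    (hT : Set.range κ = closure (Submodule.span ℂ {w | ∃ a d, w = ι a * j d} : Set W))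
    (hid : ∀ w t, ∃ t', κ t * w = κ t') (φ : A ≃⋆ₐ[ℂ] T)
    {σ0 : Empty → E →⋆ₐ[ℂ] E} {π0 : Fix q (id : Unitization ℂ A → Unitization ℂ A) σ0 →⋆ₐ[ℂ] Q0}
    (h0 : Pres _ (fun a : A => q (cst _ (a : Unitization ℂ A))) π0) :
    IsEmpty (Q0 →⋆ₐ[ℂ] ℂ) := by
  obtain ⟨θ, hθ⟩ := NCN.central hω hs
  obtain ⟨e, he, he2⟩ := NCN.unit (A := A)
  have ea : (ω : Filter ℕ) ≤ atTop := Nat.cofinite_eq_atTop ▸ hω
  let L : A →⋆ₙₐ[ℂ] W := κ.comp (φ : A →⋆ₙₐ[ℂ] T)
  have hL : ∀ a, ‖L a‖ = ‖a‖ := NonUnitalStarAlgHom.norm_map L (hκ.comp φ.injective)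
  let J : ℕ → Z →⋆ₐ[ℂ] W := fun n => j.comp (θ n)
  have hJ := fun n => NonUnitalStarAlgHom.norm_apply_le (J n)
  have k1 : ∀ d a, Tendsto (fun n => J n d * L a - L a * J n d) ω (𝓝 0) := by
    intro d a
    have ht : L a ∈ closure (Submodule.span ℂ {w | ∃ a d, w = ι a * j d} : Set W) :=
      hT ▸ ⟨φ a, rfl⟩
    refine closure_minimal (fun t ht => ?_) (NCN.lip (fun n t => J n d * t - t * J n d) (2 * ‖d‖)
      (by positivity) fun n b c => ?_) ht
    · induction ht using Submodule.span_induction with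
      | mem w hw =>
        obtain ⟨b, y, rfl⟩ := hw
        have := NCN.mulL (f := fun _ => ι b) (fun _ => le_rfl)
          (((U2.hom_cont j).tendsto' 0 0 (map_zero j)).comp (hθ d y))
        refine this.congr fun n => ?_
        simp only [Function.comp_apply, map_sub, map_mul]
        rw [mul_sub, ← mul_assoc, (hc b _).eq, mul_assoc, mul_assoc]
        rfl
      | zero => simpa using tendsto_const_nhds
      | add x y _ _ hx hy =>
        exact (NCN.add0 hx hy).congr fun n => by noncomm_ring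
      | smul c x _ hx =>
        exact (NCN.smul0 hx c).congr fun n => by simp [smul_sub]
    · rw [show J n d * b - b * J n d - (J n d * c - c * J n d) =
        J n d * (b - c) - (b - c) * J n d by noncomm_ring]
      exact ((norm_sub_le _ _).trans (add_le_add (norm_mul_le_of_le (hJ n _) le_rfl)
        (norm_mul_le_of_le le_rfl (hJ n _)))).trans_eq (by ring)
  have k2 : ∀ a, Tendsto (fun n => L (e n) * L a - L a) ω (𝓝 0) := fun a => by
    rw [tendsto_zero_iff_norm_tendsto_zero]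
    simp only [← map_mul, ← map_sub, hL]
    exact (tendsto_iff_norm_sub_tendsto_zero.1 (he2 a)).mono_left ea
  have k3 : ∀ a, Tendsto (fun n => L a * L (e n) - L a) ω (𝓝 0) := fun a => by
    have := (continuous_star.tendsto' (0 : W) 0 (star_zero W)).comp (k2 (star a))
    refine this.congr fun n => ?_
    simp only [Function.comp_apply, star_sub, star_mul, ← map_star, star_star, (he n).1]
  have hx : ∀ n d, ∃ x : A, L x = L (e n) * J n d := fun n d => by
    obtain ⟨t, ht⟩ := hid (J n d) (φ (e n))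
    exact ⟨φ.symm t, (congrArg κ (φ.apply_symm_apply t)).trans ht.symm⟩
  choose x hx using hx
  have hLe : ∀ n, ‖L (e n)‖ ≤ 1 := fun n => (hL _).trans_le (he n).2
  have hxn : ∀ n d, ‖L (x n d)‖ ≤ ‖d‖ := fun n d => by
    rw [hx]; exact (norm_mul_le_of_le (hLe n) (hJ n d)).trans_eq (one_mul _)
  have k4 : ∀ d a, Tendsto (fun n => L (x n d) * L a - L a * J n d) ω (𝓝 0) := fun d a =>
    (NCN.add0 (NCN.mulL hLe (k1 d a)) (NCN.mulR (hJ · d) (k2 a))).congr fun n => by
      rw [hx]; noncomm_ring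
  obtain ⟨Λ, el⟩ : ∃ Λ : Unitization ℂ A →⋆ₐ[ℂ] W, ∀ a : A, Λ a = L a :=
    ⟨Unitization.starLift L, fun a => (Unitization.starLift_symm_apply_apply _ a).symm.trans
      (by rw [Equiv.symm_apply_apply])⟩
  have nm : ∀ a : A, ‖(a : Unitization ℂ A)‖ = ‖Λ a‖ := fun a => by
    rw [el, hL, Unitization.norm_inr]
  let X : Z → Linf (Unitization ℂ A) := fun d => U1.bd (fun n => (x n d : Unitization ℂ A)) ‖d‖
    fun n => by rw [nm, el]; exact hxn n d
  have hX : ∀ d, q (X d) ∈ Fix q (id : Unitization ℂ A → Unitization ℂ A) σ0 := fun d => by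
    refine mem_fix.2 ⟨U2.mem_cen.2 fun b => ?_, fun k => k.elim⟩
    refine (map_mul q _ _).symm.trans (((U1.eq_iff hq _ _).2 ?_).trans (map_mul q _ _))
    have := tendsto_zero_iff_norm_tendsto_zero.1
      (NCN.sub0 (k4 d b.snd) (NCN.mulR (hJ · d) (k3 b.snd)))
    refine this.congr fun n => ?_
    have e1 : (x n d : Unitization ℂ A) * b - b * (x n d : Unitization ℂ A) =
        ((x n d * b.snd - b.snd * x n d : A) : Unitization ℂ A) := by
      induction b using Unitization.ind with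
      | inl_add_inr r a => simp [mul_add, add_mul, Unitization.inl_mul_inr, Unitization.inr_mul_inl]
    change _ = ‖(x n d : Unitization ℂ A) * b - b * (x n d : Unitization ℂ A)‖
    rw [e1, nm, el, map_sub, map_mul, map_mul, hx]
    congr 1
    noncomm_ring
  have uq : ∀ (y y' : Fix q (id : Unitization ℂ A → Unitization ℂ A) σ0) (Y Y') (f : ℕ → W),
      q Y = y → q Y' = y' → (∀ a, Tendsto (fun n => Λ (Y n) * L a - L a * f n) ω (𝓝 0)) →
      (∀ a, Tendsto (fun n => Λ (Y' n) * L a - L a * f n) ω (𝓝 0)) → π0 y = π0 y' := by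
    intro y y' Y Y' f e1 e2 h1 h2
    rw [← sub_eq_zero, ← map_sub, h0.ker]
    intro a
    change (y.1 - y'.1) * _ = 0
    rw [← e1, ← e2, ← map_sub, ← map_mul, U1.zero_iff hq]
    have := tendsto_zero_iff_norm_tendsto_zero.1 (NCN.sub0 (h1 a) (h2 a))
    refine this.congr fun n => ?_
    have e3 : (Y n - Y' n) * (a : Unitization ℂ A) =
        (((Y n - Y' n).fst • a + (Y n - Y' n).snd * a : A) : Unitization ℂ A) := by
      generalize Y n - Y' n = b
      induction b using Unitization.ind with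
      | inl_add_inr r c => simp [add_mul, Unitization.inl_mul_inr]
    change _ = ‖(Y n - Y' n) * (a : Unitization ℂ A)‖
    rw [e3, nm, ← e3, map_mul, map_sub, el, sub_mul, sub_sub_sub_cancel_right]
  have k5 : ∀ d a, Tendsto (fun n => Λ (X d n) * L a - L a * J n d) ω (𝓝 0) := fun d a =>
    (k4 d a).congr fun n => by rw [← el]; rfl
  have hΛ : ∀ d n, ‖Λ (X d n)‖ ≤ ‖d‖ := fun d n => (congrArg norm (el _)).trans_le (hxn n d)
  let Γ : Z →⋆ₐ[ℂ] Q0 :=
    { toFun := fun d => π0 ⟨q (X d), hX d⟩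
      map_one' := (uq _ 1 _ 1 _ rfl (map_one q) (k5 1) fun a => by
        simpa using tendsto_const_nhds).trans (map_one π0)
      map_mul' := fun d d' => (uq _ _ _ (X d * X d') _ rfl (map_mul q _ _) (k5 _) fun a =>
        (NCN.add0 (NCN.mulL (hΛ d) (k5 d' a)) (NCN.mulR (hJ · d') (k5 d a))).congr fun n => by
            rw [lp.infty_coeFn_mul, Pi.mul_apply, map_mul, map_mul]; noncomm_ring).trans
        (map_mul π0 ⟨_, hX d⟩ ⟨_, hX d'⟩)
      map_zero' := (uq _ 0 _ 0 _ rfl (map_zero q) (k5 0) fun a => by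
        simpa using tendsto_const_nhds).trans (map_zero π0)
      map_add' := fun d d' => (uq _ _ _ (X d + X d') _ rfl (map_add q _ _) (k5 _) fun a =>
        (NCN.add0 (k5 d a) (k5 d' a)).congr fun n => by
            rw [lp.coeFn_add, Pi.add_apply, map_add, map_add]; noncomm_ring).trans
        (map_add π0 ⟨_, hX d⟩ ⟨_, hX d'⟩)
      commutes' := fun c => (uq _ (algebraMap ℂ _ c) _ (algebraMap ℂ _ c) _ rfl
        (AlgHomClass.commutes q c) (k5 _) fun a => tendsto_const_nhds.congr fun n => by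
          rw [AlgHomClass.commutes (J n), ← Algebra.commutes, ← AlgHomClass.commutes Λ]
          exact (sub_self _).symm).trans (AlgHomClass.commutes π0 c)
      map_star' := fun d => (uq _ _ _ (star (X d)) _ rfl (map_star q _) (k5 _) fun a =>
        (NCN.add0 (NCN.mulL (hJ · (star d)) (k2 a)) (k1 (star d) a)).congr fun n => by
            have : Λ (star (X d) n) = J n (star d) * L (e n) := by
              rw [map_star, ← (he n).1, map_star, ← star_mul, ← hx, ← el, ← map_star]; rfl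
            rw [this]; noncomm_ring).trans (map_star π0 ⟨_, hX d⟩) }
  exact ⟨fun χ => hn.elim (χ.comp Γ)⟩

end Vale.Agent.P095
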