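import Vale.Agent.P095.NWork

/-! Part NCP of P095: commuting copies in the quotient by the annihilator. -/

namespace Vale.Agent.P095

open Filter Topology Finset Vale.Agent.P101 TopologicalSpace

variable {B E F Q Q0 W Z : Type} [CStarAlgebra B] [CStarAlgebra E] [CStarAlgebra F]
  [CStarAlgebra Q] [CStarAlgebra Q0] [CStarAlgebra W] [CStarAlgebra Z] {I K : Type}
  {A T : Type} [NonUnitalCStarAlgebra A] [NonUnitalCStarAlgebra T] {ω : Ultrafilter ℕ}

open U2

lemma NCP.reindex (hω : (ω : Filter ℕ) ≤ cofinite) [Nontrivial B]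
    {q : Linf B →⋆ₐ[ℂ] E} (hq : IsUlt ω q) {G G' S : Set (Linf B)} (hG : IsSeparable G)
    (hc : ∀ x ∈ G, q x ∈ Cen q (id : B → B)) (hG' : IsSeparable G') (hS : S.Countable) :
    ∃ m : ℕ → ℕ, (∀ x ∈ G', ‖q (rx m x)‖ ≤ ‖q x‖) ∧
      ∀ x ∈ G, ∀ s ∈ S, Commute (q (rx m x)) (q s) := by
  obtain ⟨C, hCG, hC, hGC⟩ := hG.exists_countable_dense_subset
  obtain ⟨C', -, hC', hGC'⟩ := hG'.exists_countable_dense_subset
  have := hC.to_subtype
  have := hC'.to_subtype
  have := hS.to_subtype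
  obtain ⟨m, hm⟩ := diag hω (J := (C' × ℕ) ⊕ (C × S × ℕ))
    (Sum.elim (fun j _ n => ‖j.1.1 n‖ < ‖q j.1.1‖ + 1 / ((j.2 : ℝ) + 1)) fun j l n =>
      ‖j.1.1 n * j.2.1.1 l - j.2.1.1 l * j.1.1 n‖ < 1 / ((j.2.2 : ℝ) + 1)) (by
      rintro (⟨⟨x, hx⟩, k⟩ | ⟨⟨x, hx⟩, ⟨s, hs⟩, k⟩) l
      · have hk : (0 : ℝ) < 1 / ((k : ℝ) + 1) := Nat.one_div_pos_of_nat
        exact hq.ev2 (x := x) (c := ‖q x‖ + 1 / ((k : ℝ) + 1)) (by linarith)
      · have h0 : q (x * cst B (s l) - cst B (s l) * x) = 0 := by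
          rw [map_sub, map_mul, map_mul, (mem_cen.1 (hc x (hCG hx)) (s l)).eq, sub_self]
        exact hq.ev2 (x := x * cst B (s l) - cst B (s l) * x)
          (by rw [h0, norm_zero]; exact Nat.one_div_pos_of_nat))
  have hR : Continuous fun x : Linf B => q (rx m x) :=
    (hom_cont q).comp (hom_cont (rx (A := B) m))
  refine ⟨m, fun x hx => ?_, fun x hx s hs => ?_⟩
  · refine (isClosed_le hR.norm (hom_cont q).norm).closure_subset_iff.2 (fun y hy => ?_) (hGC' hx)
    change ‖q (rx m y)‖ ≤ ‖q y‖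
    refine le_of_forall_pos_le_add fun ε hε => ?_
    obtain ⟨k, hk⟩ := exists_nat_one_div_lt hε
    refine hq.le2 ((hm (Sum.inl (⟨y, hy⟩, k))).mono fun l hl => ?_)
    have hl' : ‖y (m l)‖ < ‖q y‖ + 1 / ((k : ℝ) + 1) := hl
    exact hl'.le.trans (add_le_add le_rfl hk.le)
  · refine (isClosed_commute (g := fun _ => q s) hR continuous_const).closure_subset_iff.2
      (fun y hy => ?_) (hGC hx)
    have : q (rx m y * s - s * rx m y) = 0 := by
      rw [← norm_le_zero_iff]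
      refine le_of_forall_pos_le_add fun ε hε => ?_
      obtain ⟨k, hk⟩ := exists_nat_one_div_lt hε
      refine hq.le2 ((hm (Sum.inr (⟨y, hy⟩, ⟨s, hs⟩, k))).mono fun l hl => ?_)
      have hl' : ‖y (m l) * s l - s l * y (m l)‖ < 1 / ((k : ℝ) + 1) := hl
      rw [zero_add]
      exact hl'.le.trans hk.le
    rwa [map_sub, map_mul, map_mul, sub_eq_zero] at this

theorem cpone_quot (hω : (ω : Filter ℕ) ≤ cofinite) [Nontrivial B] [SeparableSpace B]
    {q : Linf B →⋆ₐ[ℂ] E} (hq : IsUlt ω q) [Countable K] {s : K → B →⋆ₐ[ℂ] B}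
    {σ : K → E →⋆ₐ[ℂ] E} (hσ : Ind q s σ) {c : I → B} {π : Fix q (id : B → B) σ →⋆ₐ[ℂ] Q}
    (hπ : Pres _ (fun a => q (cst B (c a))) π) : CpOne Q := by
  intro T hT
  choose lift hlift using hq.surj
  choose pre hpre using hπ.surj
  set G : StarSubalgebra ℂ (Linf B) :=
    StarAlgebra.adjoin ℂ ((fun t => lift (pre t).1) '' T) with hG
  have hGs : IsSeparable (G : Set (Linf B)) := sep_adjoin (hT.image _)
  have hc : ∀ x ∈ G, q x ∈ Fix q (id : B → B) σ := by
    have : G ≤ (Fix q (id : B → B) σ).comap q := StarAlgebra.adjoin_le (by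
      rintro _ ⟨t, -, rfl⟩
      change q (lift (pre t).1) ∈ Fix q (id : B → B) σ
      rw [hlift]
      exact (pre t).2)
    exact fun x hx => this hx
  let π0 : G →⋆ₐ[ℂ] Fix q (id : B → B) σ :=
    (q.comp G.subtype).codRestrict _ fun x => hc x.1 x.2
  let D1 : StarSubalgebra ℂ (Fix q (id : B → B) σ) := π0.range.topologicalClosure
  have hD : IsClosed (D1 : Set (Fix q (id : B → B) σ)) :=
    StarSubalgebra.isClosed_topologicalClosure _
  let π1 : G →⋆ₐ[ℂ] D1 := π0.codRestrict _ fun x =>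
    StarSubalgebra.le_topologicalClosure _ ⟨x, rfl⟩
  have hπ1 : DenseRange π1 := by
    rw [DenseRange, Subtype.dense_iff]
    intro z hz
    refine closure_mono ?_ hz
    rintro _ ⟨x, rfl⟩
    exact ⟨π1 x, ⟨x, rfl⟩, rfl⟩
  have := hGs.separableSpace
  have hπc : Continuous π1 :=
    (((hom_cont q).comp continuous_subtype_val).subtype_mk _).subtype_mk _
  have : SeparableSpace D1 := hπ1.separableSpace hπc
  let ψ : D1 →⋆ₐ[ℂ] Q := π.comp D1.subtype
  obtain ⟨D, _, p, p1, p2, -⟩ := quot (RingHom.ker ψ)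
    (isClosed_eq (hom_cont ψ) continuous_const)
  obtain ⟨e, he⟩ := Z2.lift_surj p p1 ψ fun x hx => (p2 x).1 hx
  refine ⟨D, inferInstance, p1.denseRange.separableSpace (hom_cont p), e, ?_, fun t ht => ?_,
    fun S hS => ?_⟩
  · rw [injective_iff_map_eq_zero]
    intro x hx
    obtain ⟨y, rfl⟩ := p1 x
    exact (p2 y).2 (by rwa [he] at hx)
  · refine ⟨p (π1 ⟨lift (pre t).1, StarAlgebra.subset_adjoin _ _ ⟨t, ht, rfl⟩⟩), ?_⟩
    rw [he]
    exact (congrArg π (Subtype.ext (hlift _))).trans (hpre t)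
  obtain ⟨S0, hS0S, hS0, hSS0⟩ := hS.exists_countable_dense_subset
  obtain ⟨a, ha, ha'⟩ := exists_countable_dense B
  have z0 : ∀ k, ∀ x ∈ G, q (Z2.mapL (s k) x - x) = 0 := fun k x hx => by
    rw [map_sub, ← hσ, (mem_fix.1 (hc x hx)).2, sub_self]
  obtain ⟨m, hm, hm'⟩ := NCP.reindex hω hq hGs (fun x hx => (mem_fix.1 (hc x hx)).1)
    (G' := (⋃ k, (fun x => Z2.mapL (s k) x - x) '' (G : Set (Linf B))) ∪
      (fun p : Linf B × B => p.1 * cst B p.2) '' ((G : Set (Linf B)) ×ˢ Set.univ))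
    ((IsSeparable.iUnion fun k => hGs.image ((hom_cont (Z2.mapL (s k))).sub continuous_id)).union
      ((hGs.prod (IsSeparable.of_separableSpace _)).image
        (continuous_fst.mul (continuous_cst.comp continuous_snd))))
    ((hS0.image fun s => lift (pre s).1).union (ha.image (cst B)))
  have hR : ∀ x : G, q (rx m x.1) ∈ Fix q (id : B → B) σ := fun x => mem_fix.2
    ⟨mem_cen.2 fun b => ha'.induction (P := fun b => Commute (q (rx m x.1)) (q (cst B b)))
      (fun b hb => hm' x.1 x.2 _ (Or.inr ⟨b, hb, rfl⟩))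
      (isClosed_commute continuous_const ((hom_cont q).comp continuous_cst)) b, fun k => by
      have h := hm _ (Or.inl (Set.mem_iUnion.2 ⟨k, x.1, x.2, rfl⟩))
      rw [z0 k x.1 x.2, norm_zero, norm_le_zero_iff, map_sub, map_sub, sub_eq_zero] at h
      rw [hσ]
      exact h⟩
  have hn : ∀ (x : G) (b : B), ‖q (rx m x.1) * q (cst B b)‖ ≤ ‖q x.1 * q (cst B b)‖ := fun x b => by
    rw [← map_mul, ← map_mul]
    exact hm _ (Or.inr ⟨(x.1, b), ⟨x.2, trivial⟩, rfl⟩)
  obtain ⟨ρ, hρ⟩ := extend_hom π1 hπ1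
    ((q.comp ((rx m).comp G.subtype)).codRestrict (Fix q (id : B → B) σ) hR) fun x => by
      have := hn x 1
      rwa [show cst B 1 = 1 from rfl, map_one, mul_one, mul_one] at this
  have hn' : ∀ (d : D1) (b : B), ‖(ρ d).1 * q (cst B b)‖ ≤ ‖d.1.1 * q (cst B b)‖ := fun d b => by
    refine hπ1.induction_on (p := fun d => ‖(ρ d).1 * q (cst B b)‖ ≤ ‖d.1.1 * q (cst B b)‖) d
      (isClosed_le ((continuous_subtype_val.comp (hom_cont ρ)).mul continuous_const).norm
        ((continuous_subtype_val.comp continuous_subtype_val).mul continuous_const).norm)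
      fun x => ?_
    rw [hρ]
    exact hn x b
  obtain ⟨r, hr⟩ := Z2.lift_surj p p1 (π.comp ρ) fun x hx => (hπ.ker _).2 fun a => by
    have h := hn' x (c a)
    rwa [(hπ.ker x.1).1 ((p2 x).1 hx) a, norm_zero, norm_le_zero_iff] at h
  refine ⟨r, fun d s hs => ?_⟩
  obtain ⟨d, rfl⟩ := p1 d
  rw [hr]
  refine hπ1.induction_on (p := fun d => Commute ((π.comp ρ) d) s) d
    (isClosed_commute (hom_cont (π.comp ρ)) continuous_const) fun x => ?_
  refine (isClosed_commute (f := fun _ => (π.comp ρ) (π1 x)) (g := id) continuous_const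
    continuous_id).closure_subset_iff.2 (fun s hs => ?_) (hSS0 hs)
  have := hm' x.1 x.2 _ (Or.inl ⟨s, hs, rfl⟩)
  rw [hlift] at this
  change Commute (π (ρ (π1 x))) s
  rw [hρ, ← hpre s]
  exact Commute.map (Subtype.ext this.eq) π

end Vale.Agent.P095
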