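import Vale.Agent.P101.Defs

/-! The properties of the Jiang-Su algebra used for algebras without unit. -/

namespace Vale.Agent.P095

/-- Two unital homomorphisms with commuting ranges are approximately unitarily equivalent by
unitaries that are joined to the unit by a path of unitaries. -/
def HalfFlipZero (Z : Type) [CStarAlgebra Z] : Prop :=
  ∀ (B : Type) [CStarAlgebra B] (α β : Z →⋆ₐ[ℂ] B), (∀ x y, Commute (α x) (β y)) →
    ∀ (s : Finset Z) (ε : ℝ), 0 < ε → ∃ u : unitary B, Joined 1 u ∧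
      ∀ d ∈ s, ‖(u : B) * α d * star (u : B) - β d‖ < ε

/-- Approximately central unital copies of `Z` in itself. -/
def SelfCen (Z : Type) [CStarAlgebra Z] : Prop :=
  ∀ (s : Finset Z) (ε : ℝ), 0 < ε → ∃ θ : Z →⋆ₐ[ℂ] Z, ∀ x ∈ s, ∀ y ∈ s, ‖θ x * y - y * θ x‖ < ε

end Vale.Agent.P095
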