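import Vale.Agent.P095.Work

/-! Part FN of P095: fixed points of a finite group have no character. -/

namespace Vale.Agent.P095

open Finset

namespace FN

variable {R V H : Type} [Ring R] [Algebra ℂ R] [AddCommGroup V] [Module ℂ V]

lemma zero_of_inv (ho : Orth R) (L : R →ₐ[ℂ] Module.End ℂ V) (x : R) (W : Submodule ℂ V)
    [FiniteDimensional ℂ W] (hW : ∀ d, Commute d x → ∀ v ∈ W, L d v ∈ W) {v : V} (hv : v ∈ W) :
    v = 0 := by
  by_contra h0
  obtain ⟨n, p, b, c, h1, h2, h3⟩ := ho (Module.finrank ℂ W + 1) x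
  have e : ∀ i, ∃ r, L (p i) (L (p i) (L (c i r) v)) ≠ 0 := fun i => by
    by_contra hn
    push Not at hn
    apply h0
    have := congrArg (fun t => L t v) (h2 i)
    simp only [map_sum, map_mul, map_one, LinearMap.sum_apply, Module.End.mul_apply, hn, map_zero,
      sum_const_zero, Module.End.one_apply] at this
    exact this.symm
  choose r hr using e
  let u : Fin (Module.finrank ℂ W + 1) → W := fun i =>
    ⟨L (p i) (L (c i (r i)) v), hW _ (h3 i).1 _ (hW _ ((h3 i).2 (r i)).2 _ hv)⟩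
  have li : LinearIndependent ℂ u := by
    refine Fintype.linearIndependent_iff.2 fun g hg j => ?_
    have e1 : ∑ i, g i • L (p i) (L (c i (r i)) v) = 0 := by
      simpa [u] using congrArg Subtype.val hg
    have e2 := congrArg (L (p j)) e1
    rw [map_sum, map_zero, sum_eq_single j (fun i _ hi => by
      rw [map_smul, ← Module.End.mul_apply, ← map_mul, h1 j i hi.symm, map_zero,
        LinearMap.zero_apply, smul_zero]) (by simp), map_smul] at e2
    exact (smul_eq_zero.1 e2).resolve_right (hr j)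
  have := li.fintype_card_le_finrank
  simp at this

lemma minimal [Group H] (ho : Orth R) (σ : H → R →ₐ[ℂ] R) (h1 : ∀ x, σ 1 x = x)
    (hm : ∀ g h x, σ (g * h) x = σ g (σ h x)) (L : R →ₐ[ℂ] Module.End ℂ V)
    (U : H → Module.End ℂ V) (hU : ∀ g x, U g * L x = L (σ g x) * U g) (s : Finset H) :
    ∀ x : H → R, FiniteDimensional ℂ (LinearMap.range (∑ g ∈ s, L (x g) * U g)) →
      ∑ g ∈ s, L (x g) * U g = 0 := by
  classical
  induction s using Finset.induction_on with
  | empty => exact fun _ _ => sum_empty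
  | insert h s hs ih =>
    intro x hx
    obtain ⟨T, hT⟩ : ∃ T, T = ∑ g ∈ insert h s, L (x g) * U g := ⟨_, rfl⟩
    rw [← hT] at hx ⊢
    have key : ∀ d, Commute d (x h) → L d * T - T * L (σ h⁻¹ d) = 0 := fun d hd => by
      have e : L d * T - T * L (σ h⁻¹ d) =
          ∑ g ∈ s, L (d * x g - x g * σ g (σ h⁻¹ d)) * U g := by
        have e1 : L d * T - T * L (σ h⁻¹ d) =
            ∑ g ∈ insert h s, L (d * x g - x g * σ g (σ h⁻¹ d)) * U g := by
          rw [hT, mul_sum, sum_mul, ← sum_sub_distrib]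
          refine sum_congr rfl fun g _ => ?_
          rw [mul_assoc, hU, map_sub, map_mul, map_mul, sub_mul, mul_assoc, mul_assoc]
        rw [e1, sum_insert hs, ← hm, mul_inv_cancel, h1, hd.eq, sub_self, map_zero, zero_mul,
          zero_add]
      rw [e]
      refine ih _ ?_
      rw [← e]
      refine Submodule.finiteDimensional_of_le
        (S₂ := (LinearMap.range T).map (L d) ⊔ LinearMap.range T) ?_
      rintro _ ⟨v, rfl⟩
      exact Submodule.sub_mem _ (Submodule.mem_sup_left ⟨T v, ⟨v, rfl⟩, rfl⟩)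
        (Submodule.mem_sup_right ⟨_, rfl⟩)
    refine LinearMap.ext fun v => zero_of_inv ho L (x h) (LinearMap.range T) ?_ ⟨v, rfl⟩
    rintro d hd _ ⟨w, rfl⟩
    exact ⟨L (σ h⁻¹ d) w, (LinearMap.congr_fun (sub_eq_zero.1 (key d hd)) w).symm⟩

end FN

theorem fin_nochar {R : Type} [Ring R] [Algebra ℂ R] {H : Type} [Group H] [Fintype H]
    (σ : H → R →ₐ[ℂ] R) (h1 : ∀ x, σ 1 x = x) (hm : ∀ g h x, σ (g * h) x = σ g (σ h x))
    (ho : Orth R) (S : Subalgebra ℂ R) (hS : ∀ x, x ∈ S ↔ ∀ g, σ g x = x) :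
    IsEmpty (S →ₐ[ℂ] ℂ) := by
  refine ⟨fun χ => ?_⟩
  let E : R →ₗ[ℂ] R := ∑ g, (σ g).toLinearMap
  have hE : ∀ x, E x = ∑ g, σ g x := fun x => by simp [E]
  have hES : ∀ x, E x ∈ S := fun x => (hS _).2 fun g => by
    rw [hE, map_sum]
    exact Fintype.sum_equiv (Equiv.mulLeft g) _ _ fun k => (hm g k x).symm
  let φ : R →ₗ[ℂ] ℂ := χ.toLinearMap ∘ₗ E.codRestrict S.toSubmodule hES
  have hφ : ∀ x, φ x = χ ⟨E x, hES x⟩ := fun _ => rfl
  have φσ : ∀ g x, φ (σ g x) = φ x := fun g x => by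
    rw [hφ, hφ]
    congr 2
    rw [hE, hE]
    exact Fintype.sum_equiv (Equiv.mulRight g) _ _ fun k => (hm k g x).symm
  have φm : ∀ y (a : S), φ (y * a) = φ y * χ a := fun y a => by
    rw [hφ, hφ, ← map_mul]
    congr 1
    refine Subtype.ext ?_
    change E (y * a) = E y * a
    rw [hE, hE, sum_mul]
    exact sum_congr rfl fun g _ => by rw [map_mul, (hS _).1 a.2 g]
  have φ1 : φ 1 = Fintype.card H := by
    have : (⟨E 1, hES 1⟩ : S) = (Fintype.card H : S) := Subtype.ext (by
      change E 1 = ((Fintype.card H : S) : R)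
      rw [hE]; simp)
    rw [hφ, this, map_natCast]
  let N : Submodule ℂ R :=
    { carrier := {x | ∀ y, φ (y * x) = 0}
      add_mem' := fun {a b} ha hb y => by rw [mul_add, map_add, ha y, hb y, add_zero]
      zero_mem' := fun y => by rw [mul_zero, map_zero]
      smul_mem' := fun c a ha y => by rw [mul_smul_comm, map_smul, ha y, smul_zero] }
  have hN : ∀ x, x ∈ N ↔ ∀ y, φ (y * x) = 0 := fun _ => Iff.rfl
  have n1 : ∀ d : R, N ≤ N.comap (LinearMap.mulLeft ℂ d) := fun d x hx =>
    (hN _).2 fun y => by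
      rw [LinearMap.mulLeft_apply, ← mul_assoc]
      exact hx _
  have n2 : ∀ g, N ≤ N.comap (σ g).toLinearMap := fun g x hx => (hN _).2 fun y => by
    have e : y = σ g (σ g⁻¹ y) := by rw [← hm, mul_inv_cancel, h1]
    rw [AlgHom.toLinearMap_apply, e, ← map_mul, φσ]
    exact hx _
  let L : R →ₐ[ℂ] Module.End ℂ (R ⧸ N) :=
    { toFun := fun d => N.mapQ N (LinearMap.mulLeft ℂ d) (n1 d)
      map_one' := N.linearMap_qext (LinearMap.ext fun x => congrArg N.mkQ (one_mul x))
      map_mul' := fun a b =>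
        N.linearMap_qext (LinearMap.ext fun x => congrArg N.mkQ (mul_assoc a b x))
      map_zero' := N.linearMap_qext (LinearMap.ext fun x => congrArg N.mkQ (zero_mul x))
      map_add' := fun a b =>
        N.linearMap_qext (LinearMap.ext fun x => congrArg N.mkQ (add_mul a b x))
      commutes' := fun c => N.linearMap_qext (LinearMap.ext fun x =>
        congrArg N.mkQ (Algebra.smul_def c x).symm) }
  let U : H → Module.End ℂ (R ⧸ N) := fun g => N.mapQ N (σ g).toLinearMap (n2 g)
  have hT : ∀ x, (∑ g, L 1 * U g) (N.mkQ x) = χ ⟨E x, hES x⟩ • N.mkQ 1 := fun x => by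
    have e : (∑ g, L 1 * U g) (N.mkQ x) = N.mkQ (E x) := by
      rw [hE, map_sum, LinearMap.sum_apply, map_one]
      rfl
    rw [e, ← map_smul, ← sub_eq_zero, ← map_sub, Submodule.mkQ_apply,
      Submodule.Quotient.mk_eq_zero, hN]
    intro y
    rw [mul_sub, map_sub, φm y ⟨E x, hES x⟩, mul_smul_comm, mul_one, map_smul, smul_eq_mul,
      mul_comm, sub_self]
  have h0 := FN.minimal ho σ h1 hm L U (fun g x => N.linearMap_qext (LinearMap.ext fun y =>
    congrArg N.mkQ (map_mul (σ g) x y))) univ (fun _ => 1) (by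
      refine Submodule.finiteDimensional_of_le (S₂ := ℂ ∙ N.mkQ 1) ?_
      rintro _ ⟨v, rfl⟩
      obtain ⟨x, rfl⟩ := N.mkQ_surjective v
      rw [hT]
      exact Submodule.smul_mem _ _ (Submodule.mem_span_singleton_self _))
  have h2 := hT 1
  have hc : (Fintype.card H : ℂ) ≠ 0 := Nat.cast_ne_zero.2 Fintype.card_ne_zero
  rw [h0, LinearMap.zero_apply, ← hφ, φ1, eq_comm, smul_eq_zero, or_iff_right hc,
    Submodule.mkQ_apply, Submodule.Quotient.mk_eq_zero, hN] at h2
  exact hc (by rw [← φ1, ← h2 1, mul_one])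

end Vale.Agent.P095
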