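import Vale.Agent.P095.NWork
import Vale.Agent.P095.PartFN

/-! Fixed points of a finite group in the central sequence algebra of an algebra without unit. -/

namespace Vale.Agent.P095

open Filter Topology Finset Vale.Agent.P101 TopologicalSpace

variable {B E F Q Q0 W Z : Type} [CStarAlgebra B] [CStarAlgebra E] [CStarAlgebra F]
  [CStarAlgebra Q] [CStarAlgebra Q0] [CStarAlgebra W] [CStarAlgebra Z] {I K : Type}
  {A T : Type} [NonUnitalCStarAlgebra A] [NonUnitalCStarAlgebra T] {ω : Ultrafilter ℕ}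

theorem fix_nocharN [Nontrivial B] {q : Linf B →⋆ₐ[ℂ] E} (hq : IsUlt ω q) {H : Type} [Group H]
    [Fintype H] {s : H → B →⋆ₐ[ℂ] B} (h1 : ∀ x, s 1 x = x) (hm : ∀ g h x, s (g * h) x = s g (s h x))
    {σ : H → E →⋆ₐ[ℂ] E} (hσ : Ind q s σ) {c : I → B} (hc : ∀ g a, ∃ a', s g (c a) = c a')
    {σ0 : Empty → E →⋆ₐ[ℂ] E} {π0 : Fix q (id : B → B) σ0 →⋆ₐ[ℂ] Q0}
    (h0 : Pres _ (fun a => q (cst B (c a))) π0) {π : Fix q (id : B → B) σ →⋆ₐ[ℂ] Q}
    (hπ : Pres _ (fun a => q (cst B (c a))) π) (ho : Orth Q0) : IsEmpty (Q →⋆ₐ[ℂ] ℂ) := by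
  have e1 : ∀ x, σ 1 x = x := fun x => by
    obtain ⟨x, rfl⟩ := hq.surj x
    rw [hσ]
    exact congrArg q (lp.ext (funext fun n => h1 (x n)))
  have em : ∀ g h x, σ (g * h) x = σ g (σ h x) := fun g h x => by
    obtain ⟨x, rfl⟩ := hq.surj x
    rw [hσ, hσ, hσ]
    exact congrArg q (lp.ext (funext fun n => hm g h (x n)))
  have ec : ∀ g a, σ g (q (cst B (s g⁻¹ a))) = q (cst B a) := fun g a => by
    rw [hσ]
    refine congrArg q (lp.ext (funext fun n => ?_))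
    show s g (s g⁻¹ a) = a
    rw [← hm, mul_inv_cancel, h1]
  have cen : ∀ g (x : Fix q (id : B → B) σ0),
      ((σ g).comp (Fix q (id : B → B) σ0).subtype) x ∈ Fix q (id : B → B) σ0 := fun g x =>
    mem_fix.2 ⟨U2.mem_cen.2 fun a => by
      have := (U2.mem_cen.1 (mem_fix.1 x.2).1 (s g⁻¹ a)).map (σ g)
      rwa [ec] at this, fun k => k.elim⟩
  let ρ : H → Fix q (id : B → B) σ0 →⋆ₐ[ℂ] Fix q (id : B → B) σ0 := fun g =>
    ((σ g).comp (Fix q (id : B → B) σ0).subtype).codRestrict _ (cen g)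
  have hρ : ∀ g x, (ρ g x).1 = σ g x.1 := fun _ _ => rfl
  choose τ hτ using fun g => Z2.lift_surj π0 h0.surj (π0.comp (ρ g)) fun x hx =>
    (h0.ker _).2 fun a => by
      obtain ⟨a', ha⟩ := hc g⁻¹ a
      have := congrArg (σ g) ((h0.ker x).1 hx a')
      rwa [map_mul, map_zero, ← ha, ec] at this
  have hτ' : ∀ g x, τ g (π0 x) = π0 (ρ g x) := hτ
  let S : Subalgebra ℂ Q0 := ⨅ g, AlgHom.equalizer (τ g).toAlgHom (AlgHom.id ℂ _)
  have hS : ∀ x, x ∈ S ↔ ∀ g, (τ g).toAlgHom x = x := fun x => by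
    simp [S, AlgHom.mem_equalizer]
  have hE := fin_nochar (fun g => (τ g).toAlgHom) (fun x => by
      obtain ⟨x, rfl⟩ := h0.surj x
      exact (hτ' 1 x).trans (congrArg π0 (Subtype.ext (e1 x)))) (fun g h x => by
      obtain ⟨x, rfl⟩ := h0.surj x
      change τ (g * h) (π0 x) = τ g (τ h (π0 x))
      rw [hτ', hτ', hτ']
      exact congrArg π0 (Subtype.ext (em g h x))) ho S hS
  let i : Fix q (id : B → B) σ →⋆ₐ[ℂ] Fix q (id : B → B) σ0 :=
    (Fix q (id : B → B) σ).subtype.codRestrict _ fun x =>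
      mem_fix.2 ⟨(mem_fix.1 x.2).1, fun k => k.elim⟩
  obtain ⟨Ψ, hΨ⟩ := Z2.lift_surj π hπ.surj (π0.comp i) fun x hx =>
    (h0.ker _).2 ((hπ.ker x).1 hx)
  have inj : Function.Injective Ψ := (injective_iff_map_eq_zero Ψ).2 fun y hy => by
    obtain ⟨x, rfl⟩ := hπ.surj y
    rw [hΨ] at hy
    exact (hπ.ker x).2 ((h0.ker (i x)).1 hy)
  have sur : ∀ y : S, ∃ z, Ψ z = y := fun y => by
    obtain ⟨x, hx⟩ := h0.surj y
    let x' : Fix q (id : B → B) σ0 := (Fintype.card H : ℂ)⁻¹ • ∑ g, ρ g x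
    have e : x'.1 = (Fintype.card H : ℂ)⁻¹ • ∑ g, σ g x.1 := by
      simp only [x', SetLike.val_smul, AddSubmonoidClass.coe_finsetSum, hρ]
    refine ⟨π ⟨x'.1, mem_fix.2 ⟨(mem_fix.1 x'.2).1, fun k => ?_⟩⟩, (hΨ _).trans ?_⟩
    · rw [e, map_smul, map_sum]
      simp only [← em]
      exact congrArg _ (Equiv.sum_comp (Equiv.mulLeft k) fun g => σ g x.1)
    · change π0 x' = y
      have e2 : ∀ g, π0 (ρ g x) = y := fun g => by
        rw [← hτ', hx]
        exact (hS y).1 y.2 g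
      simp only [x', map_smul, map_sum, e2, sum_const, card_univ]
      rw [← Nat.cast_smul_eq_nsmul ℂ, smul_smul, inv_mul_cancel₀ (by simp), one_smul]
  choose z hz using sur
  refine ⟨fun χ => hE.false (χ.toAlgHom.comp
    { toFun := z
      map_one' := inj (by simp [hz])
      map_mul' := fun x y => inj (by simp [hz])
      map_zero' := inj (by simp [hz])
      map_add' := fun x y => inj (by simp [hz])
      commutes' := fun r => inj (by rw [hz, AlgHomClass.commutes]; rfl) })⟩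

end Vale.Agent.P095
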