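import Vale.Agent.P095.NWork
import Vale.Agent.P101.PartZ4
import Vale.Agent.P101.PartZ3

/-! Equivariant one-sided intertwining without unit. -/

namespace Vale.Agent.P095

open Filter Topology Finset Vale.Agent.P101 TopologicalSpace

variable {B E F Q Q0 W Z : Type} [CStarAlgebra B] [CStarAlgebra E] [CStarAlgebra F]
  [CStarAlgebra Q] [CStarAlgebra Q0] [CStarAlgebra W] [CStarAlgebra Z] {I K : Type}
  {A T : Type} [NonUnitalCStarAlgebra A] [NonUnitalCStarAlgebra T] {ω : Ultrafilter ℕ}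

namespace NIG

open Z3

variable {G : Type} [Group G]

/-- The filter of good unitaries. -/
def fil (ι : A →⋆ₙₐ[ℂ] W) (j : Z →⋆ₐ[ℂ] W) : Filter W where
  sets := {S | ∃ (X : Finset A) (Y : Finset Z) (δ : ℝ), 0 < δ ∧ ∀ z ∈ unitary W,
    (∀ a ∈ X, ‖z * ι a - ι a * z‖ < δ) →
    (∀ d ∈ Y, ∀ a ∈ X, ∃ a', ‖z * j d * star z * ι a - ι a'‖ < δ) → z ∈ S}
  univ_sets := ⟨∅, ∅, 1, one_pos, fun _ _ _ _ => trivial⟩
  sets_of_superset := fun ⟨X, Y, δ, h0, h⟩ hs => ⟨X, Y, δ, h0, fun z hz a b => hs (h z hz a b)⟩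
  inter_sets := by
    classical
    rintro S S' ⟨X, Y, δ, h0, h⟩ ⟨X', Y', δ', h0', h'⟩
    refine ⟨X ∪ X', Y ∪ Y', min δ δ', lt_min h0 h0', fun z hz h1 h2 => ⟨h z hz ?_ ?_, h' z hz ?_ ?_⟩⟩
    · exact fun a ha => (h1 a (mem_union_left _ ha)).trans_le (min_le_left _ _)
    · exact fun d hd a ha => (h2 d (mem_union_left _ hd) a (mem_union_left _ ha)).imp
        fun a ha => ha.trans_le (min_le_left _ _)
    · exact fun a ha => (h1 a (mem_union_right _ ha)).trans_le (min_le_right _ _)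
    · exact fun d hd a ha => (h2 d (mem_union_right _ hd) a (mem_union_right _ ha)).imp
        fun a ha => ha.trans_le (min_le_right _ _)

lemma all (ι : A →⋆ₙₐ[ℂ] W) (j : Z →⋆ₐ[ℂ] W) (hc : ∀ a d, Commute (ι a) (j d)) {t : W}
    (ht : t ∈ closure (Submodule.span ℂ {w | ∃ a d, w = ι a * j d} : Set W)) (ε : ℝ)
    (hε : 0 < ε) : ∀ᶠ z in fil ι j, ∃ a, ‖z * t * star z - ι a‖ < ε := by
  have un : ∀ᶠ z in fil ι j, z ∈ unitary W := ⟨∅, ∅, 1, one_pos, fun _ hz _ _ => hz⟩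
  have key : ∀ t ∈ Submodule.span ℂ {w | ∃ a d, w = ι a * j d}, ∀ ε : ℝ, 0 < ε →
      ∀ᶠ z in fil ι j, ∃ a, ‖z * t * star z - ι a‖ < ε := by
    intro t ht
    induction ht using Submodule.span_induction with
    | mem x hx =>
      obtain ⟨a, d, rfl⟩ := hx
      intro ε hε
      have hp : 0 < ‖j d‖ + 1 := by positivity
      refine ⟨{a}, {d}, ε / (‖j d‖ + 1), by positivity, fun z hz h1 h2 => ?_⟩
      obtain ⟨a', h3⟩ := h2 d (mem_singleton_self d) a (mem_singleton_self a)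
      have h4 := h1 a (mem_singleton_self a)
      refine ⟨a', ?_⟩
      have e : z * (ι a * j d) * star z - ι a' = (z * j d * star z * ι a - ι a') +
          z * (j d * (star z * ((z * ι a - ι a * z) * star z))) := by
        rw [(hc a d).eq, sub_mul, mul_sub, mul_assoc (ι a) z, Unitary.mul_star_self_of_mem hz,
          mul_one, mul_assoc z (ι a), ← mul_assoc (star z) z, Unitary.star_mul_self_of_mem hz,
          one_mul]
        noncomm_ring
      have h5 : ‖z * (j d * (star z * ((z * ι a - ι a * z) * star z)))‖ ≤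
          ‖j d‖ * (ε / (‖j d‖ + 1)) := by
        rw [CStarRing.norm_mem_unitary_mul _ hz]
        refine (norm_mul_le _ _).trans ?_
        rw [CStarRing.norm_mem_unitary_mul _ (Unitary.star_mem hz),
          CStarRing.norm_mul_mem_unitary _ (Unitary.star_mem hz)]
        exact mul_le_mul_of_nonneg_left h4.le (norm_nonneg _)
      have h6 : ε / (‖j d‖ + 1) + ‖j d‖ * (ε / (‖j d‖ + 1)) = ε := by field_simp; ring
      rw [e]
      exact (norm_add_le _ _).trans_lt (by linarith)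
    | zero => exact fun ε hε => Eventually.of_forall fun z => ⟨0, by simpa using hε⟩
    | add x y _ _ hx hy =>
      intro ε hε
      filter_upwards [hx _ (half_pos hε), hy _ (half_pos hε)] with z ⟨a, ha⟩ ⟨b, hb⟩
      refine ⟨a + b, ?_⟩
      have e : z * (x + y) * star z - ι (a + b) =
          (z * x * star z - ι a) + (z * y * star z - ι b) := by
        rw [map_add, mul_add, add_mul]; abel
      rw [e]
      exact (norm_add_le _ _).trans_lt (by linarith)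
    | smul c x _ hx =>
      intro ε hε
      have hp : 0 < ‖c‖ + 1 := by positivity
      filter_upwards [hx (ε / (‖c‖ + 1)) (by positivity)] with z ⟨a, ha⟩
      refine ⟨c • a, ?_⟩
      rw [map_smul, mul_smul_comm, smul_mul_assoc, ← smul_sub, norm_smul]
      rw [lt_div_iff₀ hp] at ha
      nlinarith [norm_nonneg c, norm_nonneg (z * x * star z - ι a)]
  obtain ⟨y, hy, hty⟩ := Metric.mem_closure_iff.1 ht _ (half_pos hε)
  filter_upwards [key y hy _ (half_pos hε), un] with z ⟨a, ha⟩ hz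
  refine ⟨a, ?_⟩
  have e : z * t * star z - ι a = z * (t - y) * star z + (z * y * star z - ι a) := by
    rw [mul_sub, sub_mul]; abel
  rw [dist_eq_norm, ← Z4.norm_conj hz] at hty
  rw [e]
  exact (norm_add_le _ _).trans_lt (by linarith)

lemma step (ι : A → W) (β : G →* (W ≃⋆ₐ[ℂ] W)) {P : Set W}
    (hP : ∀ (u : unitary W), ∀ y ∈ P, cj u y ∈ P)
    (h : ∀ (V : Finset G) (X : Finset A) (Y : Finset W) (ε : ℝ), (∀ y ∈ Y, y ∈ P) → 0 < ε →
      ∃ z ∈ unitary W, (∀ g ∈ V, ‖β g z - z‖ < ε) ∧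
      (∀ a ∈ X, ‖z * ι a - ι a * z‖ < ε) ∧ ∀ t ∈ Y, ∃ a, ‖z * t * star z - ι a‖ < ε)
    (V : ℕ → Finset G) (a : ℕ → A) {t : ℕ → W} (ht : ∀ j, t j ∈ P) (n : ℕ)
    (s : unitary W × Finset A) :
    ∃ s' : unitary W × Finset A, s.2 ⊆ s'.2 ∧ a n ∈ s'.2 ∧
      (∀ x ∈ s.2, dist (cj s.1 (ι x)) (cj s'.1 (ι x)) ≤ (1 / 2) ^ n) ∧
      (∀ j ≤ n, ∃ x ∈ s'.2, dist (cj s'.1 (ι x)) (t j) ≤ (1 / 2) ^ n) ∧
      ∀ g ∈ V n, dist ((s.1 : W) * β g (star s.1)) ((s'.1 : W) * β g (star s'.1)) ≤ (1 / 2) ^ n := by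
  classical
  obtain ⟨z, hz, h0, h1, h2⟩ := h (V n) s.2 ((range (n + 1)).image fun j => cj (star s.1) (t j))
    ((1 / 2) ^ n) (fun y hy => by
      obtain ⟨j, -, rfl⟩ := mem_image.1 hy
      exact hP _ _ (ht j)) (by positivity)
  have h3 : ∀ j, ∃ x, j ≤ n → ‖z * cj (star s.1) (t j) * star z - ι x‖ < (1 / 2) ^ n := fun j => by
    by_cases hj : j ≤ n
    · obtain ⟨x, hx⟩ := h2 _ (mem_image_of_mem _ (mem_range.2 (Nat.lt_succ_of_le hj)))
      exact ⟨x, fun _ => hx⟩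
    · exact ⟨0, fun h => absurd h hj⟩
  choose x hx using h3
  have hm : ∀ u v : unitary W, ∀ y, cj (u * v) y = cj u (cj v y) := fun u v y => by
    simp [mul_assoc]
  refine ⟨(s.1 * star ⟨z, hz⟩, insert (a n) (s.2 ∪ (range (n + 1)).image x)),
    fun y hy => by simp [hy], by simp, fun y hy => ?_, fun j hj =>
      ⟨x j, mem_insert_of_mem (mem_union_right _
        (mem_image_of_mem _ (mem_range.2 (Nat.lt_succ_of_le hj)))), ?_⟩, fun g hg => ?_⟩
  · rw [dist_eq_norm, hm, ← map_sub, norm_cj, ← CStarRing.norm_mem_unitary_mul _ hz]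
    refine le_of_eq_of_le (congrArg _ ?_) (h1 y hy).le
    simp [mul_sub, ← mul_assoc, Unitary.mul_star_self_of_mem hz]
  · rw [dist_comm, dist_eq_norm, ← norm_cj (star (s.1 * star ⟨z, hz⟩)), map_sub, ← hm,
      Unitary.star_mul_self, star_mul, star_star, hm]
    refine le_of_eq_of_le (congrArg _ ?_) (hx j hj).le
    simp
  · have e : ((s.1 * star ⟨z, hz⟩ : unitary W) : W) * β g (star (s.1 * star ⟨z, hz⟩ : unitary W)) -
        (s.1 : W) * β g (star s.1) = s.1 * (star z * ((β g z - z) * β g (star s.1))) := by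
      change (s.1 : W) * star z * β g (star ((s.1 : W) * star z)) - _ = _
      rw [star_mul, star_star, map_mul, sub_mul, mul_sub, mul_sub, ← mul_assoc (star z) z,
        Unitary.star_mul_self_of_mem hz, one_mul, mul_assoc]
    rw [dist_comm, dist_eq_norm, e, CStarRing.norm_coe_unitary_mul,
      CStarRing.norm_mem_unitary_mul _ (Unitary.star_mem hz),
      CStarRing.norm_mul_mem_unitary _ (Unitary.map_mem (β g) (Unitary.star_mem s.1.2))]
    exact (h0 g hg).le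

lemma seq (ι : A → W) (β : G →* (W ≃⋆ₐ[ℂ] W)) {P : Set W}
    (hP : ∀ (u : unitary W), ∀ y ∈ P, cj u y ∈ P)
    (h : ∀ (V : Finset G) (X : Finset A) (Y : Finset W) (ε : ℝ), (∀ y ∈ Y, y ∈ P) → 0 < ε →
      ∃ z ∈ unitary W, (∀ g ∈ V, ‖β g z - z‖ < ε) ∧
      (∀ a ∈ X, ‖z * ι a - ι a * z‖ < ε) ∧ ∀ t ∈ Y, ∃ a, ‖z * t * star z - ι a‖ < ε)
    (V : ℕ → Finset G) (a : ℕ → A) {t : ℕ → W} (ht : ∀ j, t j ∈ P) :
    ∃ (w : ℕ → unitary W) (X : ℕ → Finset A), (∀ n, a n ∈ X (n + 1)) ∧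
      (∀ m, ∀ x ∈ X m, ∀ k, dist (cj (w (k + m)) (ι x)) (cj (w (k + 1 + m)) (ι x)) ≤
        (1 / 2) ^ m * (1 / 2) ^ k) ∧
      (∀ n, ∀ j ≤ n, ∃ x ∈ X (n + 1), dist (cj (w (n + 1)) (ι x)) (t j) ≤ (1 / 2) ^ n) ∧
      ∀ n, ∀ g ∈ V n, dist ((w n : W) * β g (star (w n))) ((w (n + 1) : W) * β g (star (w (n + 1))))
        ≤ (1 / 2) ^ n := by
  choose f hf using step ι β hP h V a ht
  obtain ⟨s, hs⟩ : ∃ s : ℕ → unitary W × Finset A, ∀ n, s (n + 1) = f n (s n) :=
    ⟨fun n => Nat.rec (1, ∅) f n, fun _ => rfl⟩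
  have mono : Monotone fun n => (s n).2 :=
    monotone_nat_of_le_succ fun n => by rw [hs]; exact (hf n (s n)).1
  refine ⟨fun n => (s n).1, fun n => (s n).2, fun n => ?_, fun m x hx k => ?_, fun n j hj => ?_,
    fun n g hg => ?_⟩
  · simp only [hs]
    exact (hf n (s n)).2.1
  · rw [← pow_add, add_comm m, add_right_comm]
    simp only [hs]
    exact (hf (k + m) (s (k + m))).2.2.1 x (mono (Nat.le_add_left m k) hx)
  · simp only [hs]
    exact (hf n (s n)).2.2.2.1 j hj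
  · simp only [hs]
    exact (hf n (s n)).2.2.2.2 g hg

lemma lim (ψ : ℕ → A →⋆ₙₐ[ℂ] T) (cau : ∀ x, CauchySeq fun n => ψ n x) :
    ∃ Φ : A →⋆ₙₐ[ℂ] T, ∀ x, Tendsto (fun n => ψ n x) atTop (𝓝 (Φ x)) := by
  choose φ hφ using fun x => cauchySeq_tendsto_of_complete (cau x)
  exact ⟨{
      toFun := φ
      map_mul' := fun x y => tendsto_nhds_unique (hφ _) (by simpa using (hφ x).mul (hφ y))
      map_zero' := tendsto_nhds_unique (hφ 0) (by simp)
      map_add' := fun x y => tendsto_nhds_unique (hφ _) (by simpa using (hφ x).add (hφ y))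
      map_smul' := fun c x => tendsto_nhds_unique (hφ _) (by simpa using (hφ x).const_smul c)
      map_star' := fun x => tendsto_nhds_unique (hφ _) (by simpa [map_star] using (hφ x).star) },
    hφ⟩

lemma iso (ψ : ℕ → A →⋆ₙₐ[ℂ] T) {a : ℕ → A} {t : ℕ → T} (ha : DenseRange a) (ht : DenseRange t)
    (X : ℕ → Finset A) (hd : ∀ n x y, dist (ψ n x) (ψ n y) = dist x y) (hX : ∀ n, a n ∈ X (n + 1))
    (geo : ∀ m, ∀ x ∈ X m, ∀ k, dist (ψ (k + m) x) (ψ (k + 1 + m) x) ≤ (1 / 2) ^ m * (1 / 2) ^ k)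
    (ap : ∀ n, ∀ j ≤ n, ∃ x ∈ X (n + 1), dist (ψ (n + 1) x) (t j) ≤ (1 / 2) ^ n) :
    ∃ Φ : A ≃⋆ₐ[ℂ] T, ∀ x, Tendsto (fun n => ψ n x) atTop (𝓝 (Φ x)) := by
  have cau : ∀ x, CauchySeq fun n => ψ n x := fun x => by
    refine Metric.cauchySeq_iff.2 fun ε hε => ?_
    obtain ⟨k, hk⟩ := ha.exists_dist_lt x (show 0 < ε / 3 by positivity)
    have c1 : CauchySeq fun n => ψ n (a k) :=
      (cauchySeq_shift (u := fun n => ψ n (a k)) (k + 1)).1
        (cauchySeq_of_le_geometric (1 / 2) _ (by norm_num) (geo (k + 1) _ (hX k)))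
    obtain ⟨N, hN⟩ := Metric.cauchySeq_iff.1 c1 (ε / 3) (by positivity)
    refine ⟨N, fun m hm n hn' => ?_⟩
    have e1 := dist_triangle4 (ψ m x) (ψ m (a k)) (ψ n (a k)) (ψ n x)
    rw [hd, hd, dist_comm (a k)] at e1
    linarith [hN m hm n hn']
  obtain ⟨Φ, hφ⟩ := lim ψ cau
  have iso : Isometry Φ := Isometry.of_dist_eq fun x y =>
    tendsto_nhds_unique ((hφ x).dist (hφ y)) (by simp [hd])
  refine ⟨StarAlgEquiv.ofBijective Φ ⟨iso.injective, Set.range_eq_univ.1 ?_⟩, hφ⟩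
  refine Set.eq_univ_of_univ_subset ?_
  rw [← ht.closure_range]
  refine closure_minimal ?_ iso.isClosedEmbedding.isClosed_range
  rintro _ ⟨j, rfl⟩
  rw [← iso.isClosedEmbedding.isClosed_range.closure_eq, Metric.mem_closure_range_iff]
  intro ε hε
  obtain ⟨n, hn1, hn2⟩ := (((tendsto_pow_atTop_nhds_zero_of_lt_one (r := (1 / 2 : ℝ)) (by norm_num)
    (by norm_num)).eventually (gt_mem_nhds (show 0 < ε / 2 by positivity))).and
      (eventually_ge_atTop j)).exists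
  obtain ⟨x, hx, e3⟩ := ap n j hn2
  have e1 : dist (ψ (0 + (n + 1)) x) (Φ x) ≤ _ :=
    dist_le_of_le_geometric_of_tendsto₀ (f := fun k => ψ (k + (n + 1)) x) (1 / 2) _ (by norm_num)
      (geo (n + 1) x hx) ((hφ x).comp (tendsto_add_atTop_nat (n + 1)))
  refine ⟨x, ?_⟩
  have e2 := dist_triangle_left (t j) (Φ x) (ψ (n + 1) x)
  rw [zero_add, pow_succ, mul_div_assoc] at e1
  norm_num at e1 e3 hn1 ⊢
  linarith

lemma pull (κ : T →⋆ₙₐ[ℂ] W) (hκ : Function.Injective κ) (f : A →⋆ₙₐ[ℂ] W)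
    (hf : ∀ a, f a ∈ Set.range κ) : ∃ g : A →⋆ₙₐ[ℂ] T, ∀ a, κ (g a) = f a := by
  choose g hg using hf
  exact ⟨{
      toFun := g
      map_mul' := fun x y => hκ (by simp [hg])
      map_zero' := hκ (by simp [hg])
      map_add' := fun x y => hκ (by simp [hg])
      map_smul' := fun c x => hκ (by simp [hg])
      map_star' := fun x => hκ (by simp [hg, map_star]) }, hg⟩

end NIG

open NIG Z3 in
theorem intertwineN [SeparableSpace A] [SeparableSpace Z] {G : Type} [Group G] [Countable G]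
    (ι : A →⋆ₙₐ[ℂ] W) (j : Z →⋆ₐ[ℂ] W) (κ : T →⋆ₙₐ[ℂ] W) (hι : Function.Injective ι)
    (hκ : Function.Injective κ) (hc : ∀ a d, Commute (ι a) (j d))
    (hT : Set.range κ = closure (Submodule.span ℂ {w | ∃ a d, w = ι a * j d} : Set W))
    (hid : ∀ w t, ∃ t', κ t * w = κ t')
    (α : G →* (A ≃⋆ₐ[ℂ] A)) (β : G →* (W ≃⋆ₐ[ℂ] W)) (h1 : ∀ g a, β g (ι a) = ι (α g a))
    (h : ∀ (V : Finset G) (X : Finset A) (Y : Finset Z) (ε : ℝ), 0 < ε → ∃ z ∈ unitary W,
      (∀ g ∈ V, ‖β g z - z‖ < ε) ∧ (∀ a ∈ X, ‖z * ι a - ι a * z‖ < ε) ∧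
      ∀ d ∈ Y, ∀ a ∈ X, ∃ a', ‖z * j d * star z * ι a - ι a'‖ < ε) :
    ∃ (Φ : A ≃⋆ₐ[ℂ] T) (u : G → W), (∀ g, u g ∈ unitary W) ∧ (∀ g h, u (g * h) = u g * β g (u h)) ∧
      ∀ g a, κ (Φ (α g a)) = u g * β g (κ (Φ a)) * star (u g) := by
  classical
  have iκ : Isometry κ := NonUnitalStarAlgHom.isometry κ hκ
  have iι : Isometry ι := NonUnitalStarAlgHom.isometry ι hι
  have : SeparableSpace T := by
    have s1 : IsSeparable {w | ∃ a d, w = ι a * j d} := by
      refine (isSeparable_range (f := fun p : A × Z => ι p.1 * j p.2)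
        ((iι.continuous.comp continuous_fst).mul ((U2.hom_cont j).comp continuous_snd))).mono ?_
      rintro _ ⟨a, d, rfl⟩
      exact ⟨(a, d), rfl⟩
    have s2 := iκ.isEmbedding.isSeparable_preimage (hT ▸ (s1.span (R := ℂ)).closure)
    rwa [Set.preimage_range, isSeparable_univ_iff] at s2
  have hP : ∀ (u : unitary W), ∀ y ∈ Set.range κ, cj u y ∈ Set.range κ := by
    rintro u _ ⟨t, rfl⟩
    obtain ⟨t1, e1⟩ := hid (star (u : W)) t
    obtain ⟨t2, e2⟩ := hid (star (u : W)) (star t1)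
    refine ⟨star t2, ?_⟩
    rw [map_star, ← e2, star_mul, star_star, map_star, star_star, ← e1, ← mul_assoc]
    rfl
  have h' : ∀ (V : Finset G) (X : Finset A) (Y : Finset W) (ε : ℝ), (∀ y ∈ Y, y ∈ Set.range κ) →
      0 < ε → ∃ z ∈ unitary W, (∀ g ∈ V, ‖β g z - z‖ < ε) ∧
      (∀ a ∈ X, ‖z * ι a - ι a * z‖ < ε) ∧ ∀ t ∈ Y, ∃ a, ‖z * t * star z - ι a‖ < ε := by
    intro V X Y ε hY hε
    have e1 : ∀ᶠ z in fil ι j, ∀ a ∈ X, ‖z * ι a - ι a * z‖ < ε :=
      ⟨X, ∅, ε, hε, fun _ _ h1 _ => h1⟩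
    have e2 := (Y.eventually_all).2 fun t ht => all ι j hc (hT ▸ hY t ht) ε hε
    obtain ⟨X', Y', δ, h0, h3⟩ := e1.and e2
    obtain ⟨z, hz, a0, a1, a2⟩ := h V X' Y' (min δ ε) (lt_min h0 hε)
    exact ⟨z, hz, fun g hg => (a0 g hg).trans_le (min_le_right _ _),
      h3 z hz (fun a ha => (a1 a ha).trans_le (min_le_left _ _))
        fun d hd a ha => (a2 d hd a ha).imp fun a ha => ha.trans_le (min_le_left _ _)⟩
  obtain ⟨a, ha⟩ := exists_dense_seq A
  obtain ⟨t, ht⟩ := exists_dense_seq T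
  obtain ⟨e, he⟩ := exists_surjective_nat G
  obtain ⟨w, X, hX, geo, ap, co⟩ := NIG.seq ι β hP h' (fun n => (range (n + 1)).image e) a
    (t := fun n => κ (t n)) fun n => ⟨_, rfl⟩
  have hr : ∀ x, ι x ∈ Set.range κ := fun x => by
    rw [hT]
    exact subset_closure (Submodule.subset_span ⟨x, 1, by rw [map_one, mul_one]⟩)
  choose ψ hψ using fun n => pull κ hκ (((cj (w n) : W →⋆ₙₐ[ℂ] W)).comp ι)
    fun x => hP (w n) _ (hr x)
  have hψ' : ∀ n x, κ (ψ n x) = cj (w n) (ι x) := hψ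
  obtain ⟨Φ, hΦ0⟩ := NIG.iso ψ ha ht X (fun n x y => by
    rw [← iκ.dist_eq, hψ', hψ', dist_eq_norm, ← map_sub, norm_cj, ← dist_eq_norm, iι.dist_eq])
    hX (fun m x hx k => by rw [← iκ.dist_eq, hψ', hψ']; exact geo m x hx k)
    (fun n i hi => (ap n i hi).imp fun x hx => ⟨hx.1, by rw [← iκ.dist_eq, hψ']; exact hx.2⟩)
  have hΦ : ∀ x, Tendsto (fun n => cj (w n) (ι x)) atTop (𝓝 (κ (Φ x))) := fun x =>
    ((iκ.continuous.tendsto _).comp (hΦ0 x)).congr fun n => hψ' n x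
  have cau : ∀ g, CauchySeq fun n => (w n : W) * β g (star (w n)) := fun g => by
    obtain ⟨m, rfl⟩ := he g
    refine (cauchySeq_shift (u := fun n => (w n : W) * β (e m) (star (w n))) m).1
      (cauchySeq_of_le_geometric (1 / 2) ((1 / 2) ^ m) (by norm_num) fun k => ?_)
    rw [← pow_add, add_comm m, add_right_comm]
    exact co (k + m) _ (mem_image_of_mem _ (mem_range.2 (by omega)))
  choose u hu using fun g => cauchySeq_tendsto_of_complete (cau g)
  have hβ : ∀ g, Continuous (β g) := fun g => U2.hom_cont (β g : W →⋆ₐ[ℂ] W)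
  refine ⟨Φ, u, fun g => ?_, fun g k => ?_, fun g x => ?_⟩
  · exact isClosed_unitary.mem_of_tendsto (hu g) (Eventually.of_forall fun n =>
      mul_mem (w n).2 (Unitary.map_mem (β g) (Unitary.star_mem (w n).2)))
  · refine tendsto_nhds_unique (hu _) (((hu g).mul (((hβ g).tendsto _).comp (hu k))).congr
      fun n => ?_)
    rw [Function.comp_apply, map_mul (β g), mul_assoc, ← mul_assoc (β g _), ← map_mul (β g),
      Unitary.coe_star_mul_self, map_one, one_mul, map_mul β]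
    rfl
  · refine tendsto_nhds_unique (hΦ _) ((((hu g).mul (((hβ g).tendsto _).comp (hΦ x))).mul
      (hu g).star).congr fun n => ?_)
    have e1 : β g (star (w n : W)) * β g (w n : W) = 1 := by
      rw [← map_mul, Unitary.coe_star_mul_self, map_one]
    change (w n : W) * β g (star (w n : W)) * β g ((w n : W) * ι x * star (w n : W)) *
      star ((w n : W) * β g (star (w n : W))) = (w n : W) * ι (α g x) * star (w n : W)
    rw [star_mul, ← map_star, star_star, map_mul, map_mul, h1]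
    calc _ = (w n : W) * (β g (star (w n : W)) * β g (w n : W)) * ι (α g x) *
          (β g (star (w n : W)) * β g (w n : W)) * star (w n : W) := by simp only [mul_assoc]
      _ = _ := by rw [e1, mul_one, mul_one]

end Vale.Agent.P095
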