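import Vale.Agent.P095.NWork
import Vale.Agent.P101.PartS1b
import Vale.Agent.P101.PartS2

/-! Part NOR: orthogonal full elements in relative commutants. -/

namespace Vale.Agent.P095

open Filter Topology Finset Vale.Agent.P101 TopologicalSpace

variable {B E F Q Q0 W Z : Type} [CStarAlgebra B] [CStarAlgebra E] [CStarAlgebra F]
  [CStarAlgebra Q] [CStarAlgebra Q0] [CStarAlgebra W] [CStarAlgebra Z] {I K : Type}
  {A T : Type} [NonUnitalCStarAlgebra A] [NonUnitalCStarAlgebra T] {ω : Ultrafilter ℕ}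

theorem orth_of_cpone (hF : CpOne F) (h : IsEmpty (F →⋆ₐ[ℂ] ℂ)) : Orth F := by
  intro m x
  obtain ⟨y, n0, b0, d0, c0, hy, h1⟩ := nonscalar hF.cp h
  obtain ⟨p, hp, hpp⟩ := split hF.cp hy h1 m
  choose n b c hbc using fun i => (hp i).2.star_mul_self
  obtain ⟨D, _, _, e, he, hT, hρ⟩ := hF (Set.range p ∪
    (Set.range fun r : Σ i, Fin (n i) => b r.1 r.2) ∪ Set.range fun r : Σ i, Fin (n i) => c r.1 r.2)
    (((Set.countable_range _).union (Set.countable_range _)).union (Set.countable_range _))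
  obtain ⟨ρ, hx⟩ := hρ {x} (Set.countable_singleton x).isSeparable
  choose p' hp' using fun i => hT (Or.inl (Or.inl ⟨i, rfl⟩) : p i ∈ _)
  choose b' hb' using fun i r => hT (Or.inl (Or.inr ⟨⟨i, r⟩, rfl⟩) : b i r ∈ _)
  choose c' hc' using fun i r => hT (Or.inr ⟨⟨i, r⟩, rfl⟩ : c i r ∈ _)
  refine ⟨n, fun i => ρ (p' i), fun i r => ρ (b' i r), fun i r => ρ (c' i r), fun i j hij => ?_,
    fun i => ?_, fun i => ⟨hx _ _ rfl, fun r => ⟨hx _ _ rfl, hx _ _ rfl⟩⟩⟩
  · have : p' i * p' j = 0 := he (by rw [map_mul, hp', hp', hpp i j hij, map_zero])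
    rw [← map_mul, this, map_zero]
  · have : ∑ r, b' i r * (p' i * p' i) * c' i r = 1 := he (by
      rw [map_sum, map_one, ← hbc i, (hp i).1.star_eq]
      exact sum_congr rfl fun r _ => by rw [map_mul, map_mul, map_mul, hp', hb', hc'])
    simpa only [map_sum, map_mul, map_one] using congrArg ρ this

end Vale.Agent.P095
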