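import Vale.Agent.P095.NCP
import Vale.Agent.P095.NOR
import Vale.Agent.P095.NFX
import Vale.Agent.P095.NCN
import Vale.Agent.P095.NAP
import Vale.Agent.P095.NIG
import Vale.Agent.P101.Glue

/-! Assembly for algebras without unit. -/

namespace Vale.Agent.P095

open Filter Topology Finset Vale.Agent.P101 TopologicalSpace

variable {W Z : Type} [CStarAlgebra W] [CStarAlgebra Z]
  {A T : Type} [NonUnitalCStarAlgebra A] [NonUnitalCStarAlgebra T]

theorem mainN [Nontrivial A] [SeparableSpace A] [SeparableSpace Z] (hZ : DropLimit Z)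
    (hf : HalfFlipZero Z) (hs : SelfCen Z) (hn : IsEmpty (Z →⋆ₐ[ℂ] ℂ))
    (ι : A →⋆ₙₐ[ℂ] W) (j : Z →⋆ₐ[ℂ] W) (κ : T →⋆ₙₐ[ℂ] W) (hι : Function.Injective ι)
    (hκ : Function.Injective κ) (hc : ∀ a d, Commute (ι a) (j d))
    (hT : Set.range κ = closure (Submodule.span ℂ {w | ∃ a d, w = ι a * j d} : Set W))
    (hid : ∀ w t, ∃ t', κ t * w = κ t')
    (hst : Nonempty (A ≃⋆ₐ[ℂ] T)) {G : Type} [Group G] [Countable G]
    (hG : ∀ V : Finset G, (Subgroup.closure (V : Set G) : Set G).Finite)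
    (α : G →* (A ≃⋆ₐ[ℂ] A)) (β : G →* (W ≃⋆ₐ[ℂ] W)) (h1 : ∀ g a, β g (ι a) = ι (α g a))
    (h2 : ∀ g d, β g (j d) = j d) :
    ∃ (Φ : A ≃⋆ₐ[ℂ] T) (u : G → W), (∀ g, u g ∈ unitary W) ∧ (∀ g h, u (g * h) = u g * β g (u h)) ∧
      ∀ g a, κ (Φ (α g a)) = u g * β g (κ (Φ a)) * star (u g) := by
  obtain ⟨φ⟩ := hst
  have hω : ((hyperfilter ℕ : Ultrafilter ℕ) : Filter ℕ) ≤ cofinite := hyperfilter_le_cofinite
  have : SeparableSpace (Unitization ℂ A) :=
    (Unitization.uniformEquivProd (𝕜 := ℂ) (A := A)).symm.surjective.denseRange.separableSpace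
      (Unitization.uniformEquivProd (𝕜 := ℂ) (A := A)).symm.continuous
  obtain ⟨E, _, _, q, hq⟩ := exists_ult (A := Unitization ℂ A) (hyperfilter ℕ)
  have cm : ∀ {K : Type} (σ : K → E →⋆ₐ[ℂ] E), ∀ x ∈ Fix q id σ, ∀ a : A,
      Commute x (q (cst _ (a : Unitization ℂ A))) := fun σ x hx a =>
    U2.mem_cen.1 (mem_fix.1 hx).1 _
  obtain ⟨σ0, hσ0⟩ := exists_ind hq (K := Empty) fun k => k.elim
  obtain ⟨Q0, _, π0, h0⟩ := exists_pres _ _ (cm σ0)
  have ho := orth_of_cpone (cpone_quot hω hq hσ0 h0)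
    (cen_nocharN hω hq hs hn ι j κ hκ hc hT hid φ h0)
  refine intertwineN ι j κ hι hκ hc hT hid α β h1 fun V X Y ε hε => ?_
  have := (hG V).fintype
  let H := Subgroup.closure (V : Set G)
  have : Fintype H := this
  let s : H → Unitization ℂ A →⋆ₐ[ℂ] Unitization ℂ A := fun g =>
    Unitization.starMap (α g : A →⋆ₙₐ[ℂ] A)
  have es : ∀ g (a : A), s g a = (α g a : A) := fun g a => Unitization.starMap_inr _ _
  obtain ⟨ι', el⟩ : ∃ ι' : Unitization ℂ A →⋆ₐ[ℂ] W, ∀ a : A, ι' a = ι a :=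
    ⟨Unitization.starLift ι, fun a => DFunLike.congr_fun (Unitization.starLift.symm_apply_apply ι) a⟩
  have er : ∀ r : ℂ, ι' (Unitization.inl r) = algebraMap ℂ W r := fun r => AlgHomClass.commutes ι' r
  obtain ⟨σ, hσ⟩ := exists_ind hq s
  obtain ⟨Q, _, π, hπ⟩ := exists_pres _ _ (cm σ)
  obtain ⟨a0, ha0⟩ := exists_ne (0 : A)
  obtain ⟨z, hz, a1, a2, a3⟩ := approxN hω hq hZ hf hσ hπ (drop (cpone_quot hω hq hσ hπ).cp
    (fix_nocharN hq
      (fun x => by
        induction x using Unitization.ind with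
        | inl_add_inr r a => rw [map_add, es, Unitization.starMap_inl]; simp; rfl)
      (fun g h x => by
        induction x using Unitization.ind with
        | inl_add_inr r a =>
          rw [map_add, map_add, map_add, es, es, es, Unitization.starMap_inl,
            Unitization.starMap_inl, AlgHomClass.commutes]
          simp)
      hσ (fun g a => ⟨_, es g a⟩) h0 hπ ho)) ι' j
    ⟨a0, by rw [el]; exact fun h => ha0 (hι (h.trans (map_zero ι).symm))⟩
    (fun b d => by
      induction b using Unitization.ind with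
      | inl_add_inr r a =>
        rw [map_add, el, er]
        exact Commute.add_left (Algebra.commutes r _) (hc a d))
    (fun g : H => (β g : W →⋆ₐ[ℂ] W))
    (fun g b => by
      induction b using Unitization.ind with
      | inl_add_inr r a =>
        rw [map_add, map_add, map_add, map_add, es, el, el, Unitization.starMap_inl,
          AlgHomClass.commutes, er, AlgHomClass.commutes]
        exact congrArg _ (h1 g a))
    (fun g d => h2 g d) X Y ε hε
  refine ⟨z, hz, fun g hg => a1 ⟨g, Subgroup.subset_closure hg⟩, fun a ha => ?_,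
    fun d hd a ha => ?_⟩
  · simpa only [el] using a2 a ha
  · obtain ⟨b, hb⟩ := a3 d hd
    refine ⟨b.fst • a + b.snd * a, ?_⟩
    have e : ι' b * ι a = ι (b.fst • a + b.snd * a) := by
      induction b using Unitization.ind with
      | inl_add_inr r b => simp [add_mul, Algebra.smul_def, el, er]
    have := hb a ha
    rwa [el, sub_mul, e] at this

end Vale.Agent.P095
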