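import Vale.Agent.P095.NWork

/-! Part NU: unitaries in the path component of the unit. -/

namespace Vale.Agent.P095

open Filter Topology Finset Vale.Agent.P101 TopologicalSpace

variable {B E F Q Q0 W Z : Type} [CStarAlgebra B] [CStarAlgebra E] [CStarAlgebra F]
  [CStarAlgebra Q] [CStarAlgebra Q0] [CStarAlgebra W] [CStarAlgebra Z] {I K : Type}
  {A T : Type} [NonUnitalCStarAlgebra A] [NonUnitalCStarAlgebra T] {ω : Ultrafilter ℕ}

namespace NU

lemma map_exp (π : B →⋆ₐ[ℂ] Q) {x : selfAdjoint B} {y : selfAdjoint Q} (h : π x = y) :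
    π (selfAdjoint.expUnitary x) = selfAdjoint.expUnitary y := by
  let _ : NormedAlgebra ℚ B := NormedAlgebra.restrictScalars ℚ ℂ B
  let _ : NormedAlgebra ℚ Q := NormedAlgebra.restrictScalars ℚ ℂ Q
  rw [selfAdjoint.expUnitary_coe, selfAdjoint.expUnitary_coe,
    NormedSpace.map_exp π (U2.hom_cont π), map_smul, h]

end NU

theorem lift_joined (π : B →⋆ₐ[ℂ] Q) (hπ : Function.Surjective π) {v : unitary Q}
    (hv : Joined 1 v) : ∃ u : unitary B, Joined 1 u ∧ π u = v := by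
  obtain ⟨l, rfl⟩ := Unitary.mem_pathComponentOne_iff.1 (mem_pathComponent_iff.2 hv)
  clear hv
  induction l with
  | nil => exact ⟨1, Joined.refl _, map_one π⟩
  | cons y l ih =>
    obtain ⟨u, h1, h2⟩ := ih
    obtain ⟨x, hx⟩ := hπ y
    have e : π (realPart x : selfAdjoint B) = y := by
      rw [realPart_apply_coe, ← Complex.coe_smul, map_smul, map_add, map_star, hx,
        Complex.coe_smul, ← realPart_apply_coe, y.2.coe_realPart]
    refine ⟨selfAdjoint.expUnitary (realPart x) * u, ?_, ?_⟩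
    · simpa using (selfAdjoint.joined_one_expUnitary (realPart x)).mul h1
    · rw [List.map_cons, List.prod_cons, Submonoid.coe_mul, Submonoid.coe_mul, map_mul, h2,
        NU.map_exp π e]

theorem map_joined (π : B →⋆ₐ[ℂ] Q) {u : unitary B} (hu : Joined 1 u) :
    ∃ v : unitary Q, Joined 1 v ∧ π u = v := by
  obtain ⟨l, rfl⟩ := Unitary.mem_pathComponentOne_iff.1 (mem_pathComponent_iff.2 hu)
  clear hu
  induction l with
  | nil => exact ⟨1, Joined.refl _, map_one π⟩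
  | cons x l ih =>
    obtain ⟨v, h1, h2⟩ := ih
    refine ⟨selfAdjoint.expUnitary ⟨π x, x.2.map π⟩ * v, ?_, ?_⟩
    · simpa using (selfAdjoint.joined_one_expUnitary (⟨π x, x.2.map π⟩ : selfAdjoint Q)).mul h1
    · rw [List.map_cons, List.prod_cons, Submonoid.coe_mul, Submonoid.coe_mul, map_mul, h2,
        NU.map_exp π (y := ⟨π x, x.2.map π⟩) rfl]

/-- Evaluation of a bounded sequence. -/
noncomputable def NU.ev [Nontrivial F] (n : ℕ) : Linf F →⋆ₐ[ℂ] F where
  toFun x := x n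
  map_one' := rfl
  map_mul' _ _ := rfl
  map_zero' := rfl
  map_add' _ _ := rfl
  commutes' _ := rfl
  map_star' _ := rfl

open U1 Z2 in
theorem flip_joined {G : Type} [CStarAlgebra G] [Nontrivial G]
    [Nontrivial F] (hω : (ω : Filter ℕ) ≤ cofinite) (hZ : DropLimit Z) (hf : HalfFlipZero Z)
    (h : ∀ p r : ℕ, 0 < p → 0 < r → p.Coprime r → Nonempty (DimDrop p r →⋆ₐ[ℂ] G))
    (φ : G →⋆ₐ[ℂ] F) (J : Z →⋆ₐ[ℂ] F) (hc : ∀ d g, Commute (J d) (φ g)) (Y : Finset Z) {ε : ℝ}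
    (hε : 0 < ε) : ∃ w : unitary F, Joined 1 w ∧
      ∀ d ∈ Y, ∃ g, ‖(w : F) * J d * star (w : F) - φ g‖ < ε := by
  obtain ⟨E2, _, _, q2, h2⟩ := exists_ult (A := G) ω
  obtain ⟨E3, _, _, q3, h3⟩ := exists_ult (A := F) ω
  obtain ⟨Γ⟩ := limit_hom hω h2 hZ h
  obtain ⟨Φ, hΦ⟩ := induced h2 h3 φ
  choose y hy using fun d => h2.surj (Γ d)
  have e : ∀ d, (Φ.comp Γ) d = q3 (mapL φ (y d)) := fun d => by
    rw [← hΦ, hy]; rfl
  obtain ⟨u, hu, hu'⟩ := hf E3 (q3.comp ((cstH F).comp J)) (Φ.comp Γ) (fun a b => by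
    rw [e]
    refine Commute.map (?_ : Commute (cstH F (J a)) (mapL φ (y b))) q3
    exact lp.ext (funext fun n => (hc a (y b n)).eq)) Y ε hε
  obtain ⟨v, hv, hv'⟩ := lift_joined q3 h3.surj hu
  rw [← hv'] at hu'
  have : ∀ᶠ n in (ω : Filter ℕ), ∀ d ∈ Y,
      ‖(v : Linf F) n * J d * star ((v : Linf F) n) - φ (y d n)‖ < ε :=
    (Filter.eventually_all_finset Y).2 fun d hd =>
      pick h3 v (cstH F (J d)) (mapL φ (y d)) (by rw [← e]; exact hu' d hd)
  obtain ⟨n, hn⟩ := this.exists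
  obtain ⟨w, hw, hw'⟩ := map_joined (NU.ev n) hv
  refine ⟨w, hw, fun d hd => ⟨y d n, ?_⟩⟩
  rw [← hw']
  exact hn d hd

end Vale.Agent.P095
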