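import Vale.Agent.P095.Work
import Vale.Agent.P095.NDefs

/-! Working definitions for algebras without unit. -/

namespace Vale.Agent.P095

open Filter Topology Finset Vale.Agent.P101 TopologicalSpace

variable {E Q : Type} [CStarAlgebra E] [CStarAlgebra Q]

/-- `π` presents `Q` as the quotient of `S` by the annihilator of the elements `c a`. -/
structure Pres {I : Type} (S : StarSubalgebra ℂ E) (c : I → E) (π : S →⋆ₐ[ℂ] Q) : Prop where
  surj : Function.Surjective π
  ker : ∀ x, π x = 0 ↔ ∀ a, x.1 * c a = 0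
  nrm : ∀ x ε, 0 < ε → ∃ m, π m = 0 ∧ ‖x - m‖ ≤ ‖π x‖ + ε

lemma exists_pres {I : Type} (S : StarSubalgebra ℂ E) [hS : IsClosed (S : Set E)] (c : I → E)
    (h : ∀ x ∈ S, ∀ a, Commute x (c a)) :
    ∃ (Q : Type) (_ : CStarAlgebra Q) (π : S →⋆ₐ[ℂ] Q), Pres S c π := by
  let J : Ideal S :=
    { carrier := {x | ∀ a, x.1 * c a = 0}
      add_mem' := fun {x y} hx hy a => by
        change (x.1 + y.1) * c a = 0
        rw [add_mul, hx a, hy a, add_zero]
      zero_mem' := fun a => zero_mul _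
      smul_mem' := fun y x hx a => by
        change y.1 * x.1 * c a = 0
        rw [mul_assoc, hx a, mul_zero] }
  have : J.IsTwoSided := ⟨fun {x} y hx a => by
    change x.1 * y.1 * c a = 0
    rw [mul_assoc, (h _ y.2 a).eq, ← mul_assoc, hx a, zero_mul]⟩
  have hJ : IsClosed (J : Set S) := by
    have : (J : Set S) = ⋂ a, {x : S | x.1 * c a = 0} := by
      ext x
      rw [Set.mem_iInter]
      rfl
    rw [this]
    exact isClosed_iInter fun a => isClosed_eq (continuous_subtype_val.mul continuous_const)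
      continuous_const
  obtain ⟨Q, _, π, h1, h2, h3⟩ := quot J hJ
  exact ⟨Q, inferInstance, π, h1, h2, fun x ε hε =>
    (h3 x ε hε).imp fun m hm => ⟨(h2 m).2 hm.1, hm.2⟩⟩

lemma Pres.norm_mul {I : Type} {S : StarSubalgebra ℂ E} {c : I → E} {π : S →⋆ₐ[ℂ] Q}
    (h : Pres S c π) (x : S) (a : I) : ‖x.1 * c a‖ ≤ ‖π x‖ * ‖c a‖ := by
  refine le_of_forall_pos_le_add fun ε hε => ?_
  obtain ⟨m, h1, h2⟩ := h.nrm x (ε / (‖c a‖ + 1)) (by positivity)
  have e : x.1 * c a = (x - m).1 * c a := by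
    change _ = (x.1 - m.1) * c a
    rw [sub_mul, (h.ker m).1 h1 a, sub_zero]
  have h3 : ε / (‖c a‖ + 1) * ‖c a‖ ≤ ε := by
    rw [div_mul_eq_mul_div, div_le_iff₀ (by positivity)]
    nlinarith [norm_nonneg (c a)]
  rw [e]
  refine (norm_mul_le _ _).trans ?_
  have h4 : ‖(x - m).1‖ ≤ ‖π x‖ + ε / (‖c a‖ + 1) := h2
  nlinarith [norm_nonneg (c a)]

/-- Copies of separable subalgebras that commute with a given separable set. -/
def CpOne (F : Type) [CStarAlgebra F] : Prop :=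
  ∀ T : Set F, T.Countable → ∃ (D : Type) (_ : CStarAlgebra D) (_ : SeparableSpace D)
    (e : D →⋆ₐ[ℂ] F), Function.Injective e ∧ T ⊆ Set.range e ∧
      ∀ S : Set F, IsSeparable S → ∃ ρ : D →⋆ₐ[ℂ] F, ∀ d, ∀ s ∈ S, Commute (ρ d) s

lemma CpOne.cp {F : Type} [CStarAlgebra F] (h : CpOne F) : Cp F := fun T hT => by
  obtain ⟨D, _, _, e, h1, h2, h3⟩ := h T hT
  exact ⟨D, inferInstance, e, h1, h2, U2.copies h3⟩

end Vale.Agent.P095
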