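import Vale.Agent.P095.Work

/-! PART AP. -/

namespace Vale.Agent.P095

open Filter Topology Finset Vale.Agent.P101 TopologicalSpace

variable {A B E F T Z : Type} [CStarAlgebra A] [CStarAlgebra B] [CStarAlgebra E] [CStarAlgebra F]
  [CStarAlgebra T] [CStarAlgebra Z] {K : Type} {ω : Ultrafilter ℕ}

open U1 Z2

theorem approxG (hω : (ω : Filter ℕ) ≤ cofinite) [Nontrivial A]
    {q : Linf A →⋆ₐ[ℂ] E} (hq : IsUlt ω q) (hZ : DropLimit Z) (hf : HalfFlip Z) [Fintype K]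
    {s : K → A →⋆ₐ[ℂ] A} {σ : K → E →⋆ₐ[ℂ] E} (hσ : Ind q s σ)
    (h : ∀ p r : ℕ, 0 < p → 0 < r → p.Coprime r →
      Nonempty (DimDrop p r →⋆ₐ[ℂ] Fix q (id : A → A) σ))
    (ι : A →⋆ₐ[ℂ] T) (j : Z →⋆ₐ[ℂ] T) (hι : Function.Injective ι) (hc : ∀ a d, Commute (ι a) (j d))
    (t : K → T →⋆ₐ[ℂ] T) (h1 : ∀ k a, t k (ι a) = ι (s k a)) (h2 : ∀ k d, t k (j d) = j d)
    (X : Finset A) (Y : Finset Z) (ε : ℝ) (hε : 0 < ε) : ∃ z ∈ unitary T,
      (∀ k, ‖t k z - z‖ < ε) ∧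
      (∀ a ∈ X, ‖z * ι a - ι a * z‖ < ε) ∧ ∀ d ∈ Y, ∃ a, ‖z * j d * star z - ι a‖ < ε := by
  haveI : Nontrivial T := hι.nontrivial
  haveI : Nontrivial E := nontriv hq
  obtain ⟨ET, _, _, qT, hT⟩ := exists_ult (A := T) ω
  obtain ⟨τ, hτ⟩ := exists_ind hT t
  obtain ⟨Φ, hΦ⟩ := induced hq hT ι
  have m1 : ∀ g : Fix q (id : A → A) σ,
      (Φ.comp (Fix q (id : A → A) σ).subtype) g ∈ Fix qT ι τ := by
    intro g
    obtain ⟨g1, g2⟩ := mem_fix.1 g.2
    refine mem_fix.2 ⟨?_, fun k => ?_⟩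
    · rw [StarSubalgebra.mem_centralizer_iff]
      rintro _ ⟨a, rfl⟩
      have := (StarSubalgebra.mem_centralizer_iff ℂ).1 g1 _ ⟨a, rfl⟩
      have e : Φ (q (cst A (id a))) = qT (cst T (ι a)) := hΦ _
      refine ⟨?_, ?_⟩
      · have e' := congrArg Φ this.1
        rwa [map_mul, map_mul, e] at e'
      · have e' := congrArg Φ this.2
        rwa [map_mul, map_mul, map_star, e] at e'
    · obtain ⟨x, hx⟩ := hq.surj g
      show τ k (Φ g) = Φ g
      conv_rhs => rw [← g2 k]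
      rw [← hx, hσ, hΦ, hΦ, hτ]
      exact congrArg qT (lp.ext (funext fun n => h1 k (x n)))
  have m2 : ∀ d : Z, (qT.comp ((cstH T).comp j)) d ∈ Fix qT ι τ := by
    intro d
    refine mem_fix.2 ⟨?_, fun k => ?_⟩
    · rw [StarSubalgebra.mem_centralizer_iff]
      rintro _ ⟨a, rfl⟩
      refine ⟨((hc a d).map (qT.comp (cstH T))).eq, ?_⟩
      have := ((hc (star a) d).map (qT.comp (cstH T))).eq
      rwa [map_star, map_star] at this
    · exact (hτ k _).trans (congrArg qT (lp.ext (funext fun _ => h2 k d)))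
  obtain ⟨w, hw, hw'⟩ := Z2.flip hω hZ hf h
    ((Φ.comp (Fix q (id : A → A) σ).subtype).codRestrict _ m1)
    ((qT.comp ((cstH T).comp j)).codRestrict _ m2) (fun d g => by
      obtain ⟨x, hx⟩ := hq.surj g
      refine Subtype.ext ?_
      show qT (cstH T (j d)) * Φ g = Φ g * qT (cstH T (j d))
      rw [← hx, hΦ]
      refine (Commute.map (?_ : Commute (cstH T (j d)) (mapL ι x)) qT).eq
      exact lp.ext (funext fun n => (hc (x n) d).symm.eq)) Y hε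
  have hw1 : (w : ET) ∈ unitary ET :=
    ⟨congrArg Subtype.val hw.1, congrArg Subtype.val hw.2⟩
  obtain ⟨w1, w2⟩ := mem_fix.1 w.2
  obtain ⟨z, hz, hz'⟩ := lift_unitary hT hw1
  have a0 : ∀ᶠ n in (ω : Filter ℕ), ∀ k, ‖t k (z n) - z n‖ < ε :=
    Filter.eventually_all.2 fun k => by
      have := w2 k
      rw [← hz, hτ] at this
      exact ((eq_iff hT _ _).1 this).eventually (gt_mem_nhds hε)
  have a1 : ∀ᶠ n in (ω : Filter ℕ), ∀ a ∈ X, ‖z n * ι a - ι a * z n‖ < ε :=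
    (Filter.eventually_all_finset X).2 fun a _ => by
      have := ((StarSubalgebra.mem_centralizer_iff ℂ).1 w1 _ ⟨a, rfl⟩).1
      rw [← hz, ← map_mul, ← map_mul] at this
      exact ((eq_iff hT _ _).1 this.symm).eventually (gt_mem_nhds hε)
  have a2 : ∀ᶠ n in (ω : Filter ℕ), ∀ d ∈ Y, ∃ a, ‖z n * j d * star (z n) - ι a‖ < ε :=
    (Filter.eventually_all_finset Y).2 fun d hd => by
      obtain ⟨g, hg⟩ := hw' d hd
      obtain ⟨x, hx⟩ := hq.surj g
      have hg' : ‖(w : ET) * qT (cstH T (j d)) * star (w : ET) - Φ g‖ < ε := hg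
      rw [← hz, ← hx, hΦ] at hg'
      exact (pick hT z (cstH T (j d)) (mapL ι x) hg').mono fun n hn => ⟨x n, hn⟩
  obtain ⟨n, b0, b1, b2⟩ := (a0.and (a1.and a2)).exists
  exact ⟨z n, hz' n, b0, b1, b2⟩

end Vale.Agent.P095
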