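import Vale.Agent.P095.PartFN

/-! The fixed point algebra of a finite group in the central sequence algebra. -/

namespace Vale.Agent.P095

open Filter Topology Finset Vale.Agent.P101 TopologicalSpace

variable {A E : Type} [CStarAlgebra A] [CStarAlgebra E] {ω : Ultrafilter ℕ}

theorem fix_nochar [Nontrivial A] {q : Linf A →⋆ₐ[ℂ] E} (hq : IsUlt ω q) {H : Type} [Group H]
    [Fintype H] {s : H → A →⋆ₐ[ℂ] A} (h1 : ∀ x, s 1 x = x) (hm : ∀ g h x, s (g * h) x = s g (s h x))
    {σ : H → E →⋆ₐ[ℂ] E} (hσ : Ind q s σ) (ho : Orth (Cen q (id : A → A))) :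
    IsEmpty (Fix q (id : A → A) σ →⋆ₐ[ℂ] ℂ) := by
  have e1 : ∀ x, σ 1 x = x := fun x => by
    obtain ⟨x, rfl⟩ := hq.surj x
    rw [hσ]
    exact congrArg q (lp.ext (funext fun n => h1 (x n)))
  have em : ∀ g h x, σ (g * h) x = σ g (σ h x) := fun g h x => by
    obtain ⟨x, rfl⟩ := hq.surj x
    rw [hσ, hσ, hσ]
    exact congrArg q (lp.ext (funext fun n => hm g h (x n)))
  have ec : ∀ g a, σ g (q (cst A (s g⁻¹ a))) = q (cst A a) := fun g a => by
    rw [hσ]
    refine congrArg q (lp.ext (funext fun n => ?_))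
    show s g (s g⁻¹ a) = a
    rw [← hm, mul_inv_cancel, h1]
  have cen : ∀ g (x : Cen q (id : A → A)), σ g x ∈ Cen q (id : A → A) := fun g x => by
    have hx := (StarSubalgebra.mem_centralizer_iff ℂ).1 x.2
    refine (StarSubalgebra.mem_centralizer_iff ℂ).2 ?_
    rintro _ ⟨a, rfl⟩
    have h := hx _ ⟨s g⁻¹ a, rfl⟩
    have k1 := congrArg (σ g) h.1
    have k2 := congrArg (σ g) h.2
    simp only [id, map_mul, map_star, ec] at k1 k2 ⊢
    exact ⟨k1, k2⟩
  let τ : H → Cen q (id : A → A) →ₐ[ℂ] Cen q (id : A → A) := fun g =>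
    { toFun := fun x => ⟨σ g x, cen g x⟩
      map_one' := Subtype.ext (map_one (σ g))
      map_mul' := fun x y => Subtype.ext (map_mul (σ g) x.1 y.1)
      map_zero' := Subtype.ext (map_zero (σ g))
      map_add' := fun x y => Subtype.ext (map_add (σ g) x.1 y.1)
      commutes' := fun c => Subtype.ext (AlgHomClass.commutes (σ g) c) }
  let S : Subalgebra ℂ (Cen q (id : A → A)) := ⨅ g, AlgHom.equalizer (τ g) (AlgHom.id ℂ _)
  have hS : ∀ x, x ∈ S ↔ ∀ g, τ g x = x := fun x => by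
    simp [S, AlgHom.mem_equalizer]
  have hE := fin_nochar τ (fun x => Subtype.ext (e1 x)) (fun g h x => Subtype.ext (em g h x)) ho S hS
  refine ⟨fun χ => hE.false ?_⟩
  let i : S →ₐ[ℂ] Fix q (id : A → A) σ :=
    { toFun := fun x => ⟨x.1.1, mem_fix.2 ⟨x.1.2, fun g => congrArg Subtype.val ((hS _).1 x.2 g)⟩⟩
      map_one' := rfl
      map_mul' := fun _ _ => rfl
      map_zero' := rfl
      map_add' := fun _ _ => rfl
      commutes' := fun _ => rfl }
  exact χ.toAlgHom.comp i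

end Vale.Agent.P095
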