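import Vale.Agent.P095.Work
import Vale.Agent.P101.PartS1b
import Vale.Agent.P101.PartS2

/-! Part OR: orthogonal full elements in relative commutants. -/

namespace Vale.Agent.P095

open Filter Topology Finset Vale.Agent.P101 TopologicalSpace

variable {A E : Type} [CStarAlgebra A] [CStarAlgebra E] {ω : Ultrafilter ℕ}

open U2 in
theorem orth_cen (hω : (ω : Filter ℕ) ≤ cofinite) [Nontrivial A] [SeparableSpace A]
    {q : Linf A →⋆ₐ[ℂ] E} (hq : IsUlt ω q) (h : IsEmpty (Cen q (id : A → A) →⋆ₐ[ℂ] ℂ)) :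
    Orth (Cen q (id : A → A)) := by
  intro m x
  have hF := cp_of_ult hω hq
  obtain ⟨y, n0, b0, d0, c0, hy, h1⟩ := nonscalar hF h
  obtain ⟨p, hp, hpp⟩ := split hF hy h1 m
  choose n b c hbc using fun i => (hp i).2.star_mul_self
  choose lift hlift using hq.surj
  let S : Set (Cen q (id : A → A)) := Set.range p ∪
    (Set.range fun r : Σ i, Fin (n i) => b r.1 r.2) ∪ Set.range fun r : Σ i, Fin (n i) => c r.1 r.2
  have hS : S.Countable :=
    ((Set.countable_range _).union (Set.countable_range _)).union (Set.countable_range _)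
  set G : StarSubalgebra ℂ (Linf A) := StarAlgebra.adjoin ℂ ((fun t => lift t.1) '' S) with hG
  have hc : ∀ x ∈ G, q x ∈ Cen q (id : A → A) := by
    have : G ≤ (Cen q (id : A → A)).comap q := StarAlgebra.adjoin_le (by
      rintro _ ⟨t, -, rfl⟩
      change q (lift t.1) ∈ Cen q (id : A → A)
      rw [hlift]
      exact t.2)
    exact fun x hx => this hx
  obtain ⟨a, ha, ha'⟩ := exists_countable_dense A
  obtain ⟨k, hk⟩ := reindex hω hq (sep_adjoin (hS.image _)) hc
    ((Set.countable_singleton (lift x.1)).union (ha.image (cst A)))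
  have hR : ∀ x : G, q (rx k x.1) ∈ Cen q (id : A → A) := fun x => mem_cen.2 fun b =>
    ha'.induction (P := fun b => Commute (q (rx k x.1)) (q (cst A b)))
      (fun b hb => (hk x.1 x.2).2 _ (Or.inr ⟨b, hb, rfl⟩))
      (isClosed_commute continuous_const ((hom_cont q).comp continuous_cst)) b
  let ρ : G →⋆ₐ[ℂ] Cen q (id : A → A) :=
    (q.comp ((rx k).comp G.subtype)).codRestrict (Cen q (id : A → A)) hR
  let π : G →⋆ₐ[ℂ] Cen q (id : A → A) := (q.comp G.subtype).codRestrict _ fun x => hc x.1 x.2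
  have hρ : ∀ u v : G, π u = π v → ρ u = ρ v := fun u v e => by
    rw [← sub_eq_zero, ← map_sub] at e ⊢
    have e1 : q (u - v).1 = 0 := congrArg Subtype.val e
    have e2 := (hk _ (u - v).2).1
    rw [e1, norm_zero, norm_le_zero_iff] at e2
    exact Subtype.ext e2
  have hx : ∀ u : G, Commute (ρ u) x := fun u => by
    have := (hk u.1 u.2).2 _ (Or.inl rfl)
    rw [hlift] at this
    exact Subtype.ext this.eq
  have hl : ∀ t ∈ S, ∃ u : G, π u = t := fun t ht =>
    ⟨⟨lift t.1, StarAlgebra.subset_adjoin _ _ ⟨t, ht, rfl⟩⟩, Subtype.ext (hlift _)⟩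
  choose p' hp' using fun i => hl (p i) (Or.inl (Or.inl ⟨i, rfl⟩))
  choose b' hb' using fun i r => hl (b i r) (Or.inl (Or.inr ⟨⟨i, r⟩, rfl⟩))
  choose c' hc' using fun i r => hl (c i r) (Or.inr ⟨⟨i, r⟩, rfl⟩)
  refine ⟨n, fun i => ρ (p' i), fun i r => ρ (b' i r), fun i r => ρ (c' i r), fun i j hij => ?_,
    fun i => ?_, fun i => ⟨hx _, fun r => ⟨hx _, hx _⟩⟩⟩
  · rw [← map_mul, ← map_zero ρ]
    exact hρ _ _ (by rw [map_mul, hp', hp', hpp i j hij, map_zero])
  · have := hρ (∑ r, b' i r * (p' i * p' i) * c' i r) 1 (by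
      rw [map_sum, map_one, ← hbc i, (hp i).1.star_eq]
      exact sum_congr rfl fun r _ => by rw [map_mul, map_mul, map_mul, hp', hb', hc'])
    simpa only [map_sum, map_mul, map_one] using this

end Vale.Agent.P095
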