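import Vale.Agent.P095.PartFN

/-! Fixed points when the image in the outer automorphism group is finite. -/

namespace Vale.Agent.P095

open Filter Topology Finset Vale.Agent.P101 TopologicalSpace

variable {A E : Type} [CStarAlgebra A] [CStarAlgebra E] {ω : Ultrafilter ℕ}

theorem fix_nochar_out [Nontrivial A] {q : Linf A →⋆ₐ[ℂ] E} (hq : IsUlt ω q) {G : Type} [Group G]
    {s : G → A →⋆ₐ[ℂ] A} (h1 : ∀ x, s 1 x = x) (hm : ∀ g h x, s (g * h) x = s g (s h x))
    {σ : G → E →⋆ₐ[ℂ] E} (hσ : Ind q s σ) (ho : Orth (Cen q (id : A → A)))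
    (W T : Finset G) (hT : ∀ g ∈ Subgroup.closure (W : Set G), ∃ t ∈ T, ∃ u ∈ unitary A,
      ∀ a, s g a = u * s t a * star u) :
    IsEmpty (Fix q (id : A → A) (fun w : W => σ w) →⋆ₐ[ℂ] ℂ) := by
  have e1 : ∀ x, σ 1 x = x := fun x => by
    obtain ⟨x, rfl⟩ := hq.surj x
    rw [hσ]
    exact congrArg q (lp.ext (funext fun n => h1 (x n)))
  have em : ∀ g h x, σ (g * h) x = σ g (σ h x) := fun g h x => by
    obtain ⟨x, rfl⟩ := hq.surj x
    rw [hσ, hσ, hσ]
    exact congrArg q (lp.ext (funext fun n => hm g h (x n)))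
  have ec : ∀ g a, σ g (q (cst A (s g⁻¹ a))) = q (cst A a) := fun g a => by
    rw [hσ]
    refine congrArg q (lp.ext (funext fun n => ?_))
    show s g (s g⁻¹ a) = a
    rw [← hm, mul_inv_cancel, h1]
  have cen : ∀ g (x : Cen q (id : A → A)), σ g x ∈ Cen q (id : A → A) := fun g x => by
    have hx := (StarSubalgebra.mem_centralizer_iff ℂ).1 x.2
    refine (StarSubalgebra.mem_centralizer_iff ℂ).2 ?_
    rintro _ ⟨a, rfl⟩
    have h := hx _ ⟨s g⁻¹ a, rfl⟩
    have k1 := congrArg (σ g) h.1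
    have k2 := congrArg (σ g) h.2
    simp only [id, map_mul, map_star, ec] at k1 k2 ⊢
    exact ⟨k1, k2⟩
  let τ : G → Cen q (id : A → A) →ₐ[ℂ] Cen q (id : A → A) := fun g =>
    { toFun := fun x => ⟨σ g x, cen g x⟩
      map_one' := Subtype.ext (map_one (σ g))
      map_mul' := fun x y => Subtype.ext (map_mul (σ g) x.1 y.1)
      map_zero' := Subtype.ext (map_zero (σ g))
      map_add' := fun x y => Subtype.ext (map_add (σ g) x.1 y.1)
      commutes' := fun c => Subtype.ext (AlgHomClass.commutes (σ g) c) }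
  let ρ : G →* (Cen q (id : A → A) →ₐ[ℂ] Cen q (id : A → A)) :=
    { toFun := τ
      map_one' := AlgHom.ext fun x => Subtype.ext (e1 x)
      map_mul' := fun g h => AlgHom.ext fun x => Subtype.ext (em g h x) }
  have inn : ∀ g t, ∀ u ∈ unitary A, (∀ a, s g a = u * s t a * star u) → τ g = τ t := by
    intro g t u hu h
    refine AlgHom.ext fun x => Subtype.ext ?_
    have hc := ((StarSubalgebra.mem_centralizer_iff ℂ).1 (cen t x) _ ⟨u, rfl⟩).1
    obtain ⟨x, hx⟩ := x
    obtain ⟨y, rfl⟩ := hq.surj x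
    show σ g (q y) = σ t (q y)
    have k1 : σ g (q y) = q (cst A u) * σ t (q y) * q (cst A (star u)) := by
      rw [hσ, hσ, ← map_mul, ← map_mul]
      exact congrArg q (lp.ext (funext fun n => h (y n)))
    have k2 : q (cst A u) * q (cst A (star u)) = 1 := by
      rw [← map_mul, ← map_one q]
      exact congrArg q (lp.ext (funext fun _ => hu.2))
    have k3 : q (cst A u) * σ t (q y) = σ t (q y) * q (cst A u) := hc
    rw [k1, k3, mul_assoc, k2, mul_one]
  let H := (Subgroup.closure (W : Set G)).map ρ.toHomUnits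
  have hf : (H : Set (Cen q (id : A → A) →ₐ[ℂ] Cen q (id : A → A))ˣ).Finite := by
    refine (T.finite_toSet.image ρ.toHomUnits).subset ?_
    rintro _ ⟨g, hg, rfl⟩
    obtain ⟨t, ht, u, hu, h⟩ := hT g hg
    exact ⟨t, ht, Units.ext (inn g t u hu h).symm⟩
  have : Fintype H := hf.fintype
  let S : Subalgebra ℂ (Cen q (id : A → A)) :=
    ⨅ h : H, AlgHom.equalizer h.1.1 (AlgHom.id ℂ _)
  have hS : ∀ x, x ∈ S ↔ ∀ h : H, h.1.1 x = x := fun x => by
    simp only [S, Algebra.mem_iInf, AlgHom.mem_equalizer, AlgHom.id_apply]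
  have hE := fin_nochar (fun h : H => h.1.1) (fun _ => rfl) (fun _ _ _ => rfl) ho S hS
  refine ⟨fun χ => hE.false ?_⟩
  let i : S →ₐ[ℂ] Fix q (id : A → A) (fun w : W => σ w) :=
    { toFun := fun x => ⟨x.1.1, mem_fix.2 ⟨x.1.2, fun w => congrArg Subtype.val
        ((hS _).1 x.2 ⟨ρ.toHomUnits w, w, Subgroup.subset_closure w.2, rfl⟩)⟩⟩
      map_one' := rfl
      map_mul' := fun _ _ => rfl
      map_zero' := rfl
      map_add' := fun _ _ => rfl
      commutes' := fun _ => rfl }
  exact χ.toAlgHom.comp i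

end Vale.Agent.P095
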