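import Vale.Agent.P101.PartZ2
import Vale.Agent.P101.PartU2

/-! Working definitions for P095: fixed points in central sequence algebras. -/

namespace Vale.Agent.P095

open Filter Topology Finset Vale.Agent.P101

variable {A B E : Type} [CStarAlgebra A] [CStarAlgebra B] [CStarAlgebra E] {K : Type}

/-- `σ k` is the map induced by `s k` on the ultrapower. -/
def Ind [Nontrivial B] (q : Linf B →⋆ₐ[ℂ] E) (s : K → B →⋆ₐ[ℂ] B) (σ : K → E →⋆ₐ[ℂ] E) : Prop :=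
  ∀ k x, σ k (q x) = q (Z2.mapL (s k) x)

/-- The elements of the relative commutant fixed by all `σ k`. -/
noncomputable def Fix [Nontrivial B] (q : Linf B →⋆ₐ[ℂ] E) (ι : A → B) (σ : K → E →⋆ₐ[ℂ] E) :
    StarSubalgebra ℂ E :=
  Cen q ι ⊓ ⨅ k, StarAlgHom.equalizer (σ k) (StarAlgHom.id ℂ E)

lemma mem_fix [Nontrivial B] {q : Linf B →⋆ₐ[ℂ] E} {ι : A → B} {σ : K → E →⋆ₐ[ℂ] E} {x : E} :
    x ∈ Fix q ι σ ↔ x ∈ Cen q ι ∧ ∀ k, σ k x = x := by
  simp [Fix, StarAlgHom.mem_equalizer]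

instance [Nontrivial B] (q : Linf B →⋆ₐ[ℂ] E) (ι : A → B) (σ : K → E →⋆ₐ[ℂ] E) :
    IsClosed (Fix q ι σ : Set E) := by
  have : (Fix q ι σ : Set E) = (Cen q ι : Set E) ∩ ⋂ k, {x | σ k x = x} := by
    ext x
    rw [SetLike.mem_coe, mem_fix, Set.mem_inter_iff, Set.mem_iInter]
    rfl
  rw [this]
  exact IsClosed.inter inferInstance
    (isClosed_iInter fun k => isClosed_eq (U2.hom_cont (σ k)) continuous_id)

lemma exists_ind {ω : Ultrafilter ℕ} [Nontrivial B] {q : Linf B →⋆ₐ[ℂ] E} (hq : IsUlt ω q)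
    (s : K → B →⋆ₐ[ℂ] B) : ∃ σ, Ind q s σ := by
  choose σ hσ using fun k => Z2.induced hq hq (s k)
  exact ⟨σ, hσ⟩

/-- Many orthogonal full elements in the commutant of any element. -/
def Orth (F : Type) [Ring F] : Prop :=
  ∀ (m : ℕ) (x : F), ∃ (n : Fin m → ℕ) (p : Fin m → F) (b c : ∀ i, Fin (n i) → F),
    (∀ i j, i ≠ j → p i * p j = 0) ∧ (∀ i, ∑ r, b i r * (p i * p i) * c i r = 1) ∧
      ∀ i, Commute (p i) x ∧ ∀ r, Commute (b i r) x ∧ Commute (c i r) x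

/-- Approximately central unital copies of `Z` in itself. -/
def SelfCentral (Z : Type) [CStarAlgebra Z] : Prop :=
  ∀ (s : Finset Z) (ε : ℝ), 0 < ε → ∃ θ : Z →⋆ₐ[ℂ] Z, ∀ x ∈ s, ∀ y ∈ s, ‖θ x * y - y * θ x‖ < ε

end Vale.Agent.P095
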